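import Vale.Agent.P042.SS2.Tens

/-!
# Energies on a finite product space as kernel forms
-/

namespace Vale.Agent.P042.SS2

open Finset Matrix
open scoped ComplexConjugate ComplexOrder

section One

variable {A : Type*} [Fintype A] [DecidableEq A]

/-- the mean -/
noncomputable def Ew (w : A → ℝ) (u : A → ℂ) : ℂ := ∑ x, (w x : ℂ) * u x

/-- the square norm -/
noncomputable def N2 (w : A → ℝ) (u : A → ℂ) : ℝ := ∑ x, w x * ‖u x‖ ^ 2

/-- one-coordinate kernel of the energy at rate `r` -/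
noncomputable def enk (w : A → ℝ) (r : ℝ) (x y : A) : ℂ :=
  (1 - r) * (w x * w y) + r * (if x = y then (w x : ℂ) else 0)

theorem sq_rank (w : A → ℝ) (a b u v : A → ℂ) :
    sq (fun x y => (w x : ℂ) * w y * (a x * b y)) u v
      = Ew w (fun x => u x * a x) * Ew w (fun y => b y * conj (v y)) := by
  simp only [sq, Ew, Finset.sum_mul_sum]
  refine Finset.sum_congr rfl fun x _ => Finset.sum_congr rfl fun y _ => ?_
  ring

theorem sq_add (K L : A → A → ℂ) (u v : A → ℂ) :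
    sq (fun x y => K x y + L x y) u v = sq K u v + sq L u v := by
  simp only [sq, ← Finset.sum_add_distrib]
  refine Finset.sum_congr rfl fun x _ => Finset.sum_congr rfl fun y _ => ?_
  ring

theorem sq_const_mul (c : ℂ) (K : A → A → ℂ) (u v : A → ℂ) :
    sq (fun x y => c * K x y) u v = c * sq K u v := by
  simp only [sq, Finset.mul_sum]
  refine Finset.sum_congr rfl fun x _ => Finset.sum_congr rfl fun y _ => ?_
  ring

theorem sq_diag (d : A → ℂ) (u v : A → ℂ) :
    sq (fun x y => if x = y then d x else 0) u v = ∑ x, d x * (u x * conj (v x)) := by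
  simp only [sq]
  refine Finset.sum_congr rfl fun x _ => ?_
  rw [Finset.sum_eq_single x]
  · simp; ring
  · intro y _ hy
    rw [if_neg (Ne.symm hy)]; ring
  · simp

theorem conj_Ew (w : A → ℝ) (u : A → ℂ) : conj (Ew w u) = Ew w (fun x => conj (u x)) := by
  simp [Ew, map_sum]

theorem N2_eq (w : A → ℝ) (u : A → ℂ) :
    ((N2 w u : ℝ) : ℂ) = ∑ x, (w x : ℂ) * (u x * conj (u x)) := by
  simp only [N2, Complex.ofReal_sum]
  refine Finset.sum_congr rfl fun x _ => ?_
  rw [Complex.mul_conj, Complex.normSq_eq_norm_sq]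
  push_cast; ring

/-- the form of `enk` -/
theorem sq_enk (w : A → ℝ) (r : ℝ) (u : A → ℂ) :
    sq (enk w r) u u = (((1 - r) * ‖Ew w u‖ ^ 2 + r * N2 w u : ℝ) : ℂ) := by
  have e : enk w r = fun x y => ((1 - r : ℝ) : ℂ) * ((w x : ℂ) * w y * (1 * 1))
      + (r : ℂ) * (if x = y then (w x : ℂ) else 0) := by
    funext x y
    simp only [enk]; push_cast; ring
  rw [e, sq_add, sq_const_mul, sq_const_mul, sq_diag, ← N2_eq,
    sq_rank w (fun _ => 1) (fun _ => 1)]
  have : Ew w (fun x => u x * 1) * Ew w (fun y => 1 * conj (u y)) = ((‖Ew w u‖ ^ 2 : ℝ) : ℂ) := by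
    have h1 : Ew w (fun x => u x * 1) = Ew w u := by simp
    have h2 : Ew w (fun y => 1 * conj (u y)) = conj (Ew w u) := by rw [conj_Ew]; simp
    rw [h1, h2, Complex.mul_conj, Complex.normSq_eq_norm_sq]
  rw [this]; push_cast; ring

theorem sq_enk_re (w : A → ℝ) (r : ℝ) (u : A → ℂ) :
    (sq (enk w r) u u).re = (1 - r) * ‖Ew w u‖ ^ 2 + r * N2 w u := by
  rw [sq_enk, Complex.ofReal_re]

theorem enk_conj (w : A → ℝ) (r : ℝ) (x y : A) : enk w r y x = conj (enk w r x y) := by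
  simp only [enk, map_add, map_mul, map_sub, map_one, Complex.conj_ofReal]
  by_cases h : x = y
  · subst h; simp
  · rw [if_neg h, if_neg (Ne.symm h)]; simp; ring_nf; tauto

/-- Jensen -/
theorem norm_Ew_sq_le (w : A → ℝ) (hw : ∀ x, 0 ≤ w x) (hw1 : ∑ x, w x = 1) (u : A → ℂ) :
    ‖Ew w u‖ ^ 2 ≤ N2 w u := by
  have h1 : ‖Ew w u‖ ≤ ∑ x, w x * ‖u x‖ := by
    refine (norm_sum_le _ _).trans (Finset.sum_le_sum fun x _ => ?_)
    rw [norm_mul, Complex.norm_real, Real.norm_of_nonneg (hw x)]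
  have h2 : (∑ x, w x * ‖u x‖) ^ 2 ≤ (∑ x, w x) * ∑ x, w x * ‖u x‖ ^ 2 := by
    refine Finset.sum_sq_le_sum_mul_sum_of_sq_eq_mul _ (fun x _ => hw x)
      (fun x _ => mul_nonneg (hw x) (sq_nonneg _)) fun x _ => by ring
  rw [hw1, one_mul] at h2
  exact (pow_le_pow_left₀ (norm_nonneg _) h1 2).trans h2

theorem psd_enk (w : A → ℝ) (hw : ∀ x, 0 ≤ w x) (hw1 : ∑ x, w x = 1) {r : ℝ} (hr : 0 ≤ r) :
    Psd (enk w r) := by
  rw [psd_iff]
  refine ⟨fun x y => enk_conj w r x y, fun u => ?_⟩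
  rw [sq_enk_re]
  have := norm_Ew_sq_le w hw hw1 u
  nlinarith [sq_nonneg ‖Ew w u‖]

end One

end Vale.Agent.P042.SS2
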