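import Vale.Agent.P042.SS.Spec

set_option autoImplicit false

/-!
Theorem S2, state block: the extremal state with a reward for zeros of the weights.
-/

namespace Vale.Agent.P042.SS2

open Polynomial Finset Vale.Agent.P042.SS

open Classical in
/-- fraction of zeros of the weight `ν p` -/
noncomputable def zf (ν : ℕ → ℤ → ℝ) (p : ℕ) : ℝ :=
  (((range p).filter (fun x : ℕ => ν p x = 0)).card : ℝ) / p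

/-- total fraction of zeros -/
noncomputable def XX (W : Finset ℕ) (ν : ℕ → ℤ → ℝ) : ℝ := ∑ p ∈ W, zf ν p

/-- the extremal state of Theorem S2 -/
structure Pinned2 (k N' Nmin : ℕ) (W : Finset ℕ) (τ η ξ Φ : ℝ) (G : ℤ → ℝ) (ν : ℕ → ℤ → ℝ) :
    Prop where
  prime : ∀ p ∈ W, p.Prime
  wts : Wts W ν
  Φpos : 0 < Φ
  G0 : ∀ n, 0 ≤ G n
  Gsupp : ∀ n, G n ≠ 0 → 1 ≤ n ∧ n ≤ N'
  Gsum : ∑ n ∈ Icc (1 : ℤ) N', G n = N' * Φ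
  Gle : ∀ n, G n ≤ ∏ p ∈ W, (ν p n) ^ τ
  marg : ∀ p ∈ W, ∀ x : ℤ, mass G 0 N' p x = N' * Φ * ν p x / p
  low : ∀ p ∈ W, ∀ x : ℤ, ν p x = 0 ∨ ξ ≤ ν p x
  klv : ∀ (D M : ℕ) (y x : ℤ) (U : Finset ℕ) (F : ℕ → ℤ → ℝ), 1 ≤ D → D ^ k * Nmin ≤ M →
    D ^ k * Nmin ≤ N' → U ⊆ W → (∀ p ∈ U, ¬ p ∣ D) → (∀ p n, 0 ≤ F p n) →
    (∀ p ∈ U, ∀ n, F p (n + p) = F p n) → (∀ p ∈ U, ∑ x ∈ range p, ν p x * F p x = p) →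
    mass (fun n => G n * ∏ p ∈ U, (F p n) ^ τ) y M D x ≤
      (M : ℝ) / D * Φ * (1 + (D : ℝ) ^ k / M) * ((N' * (D : ℝ) ^ k / M) ^ η) *
        Real.exp (ξ * ∑ p ∈ W.filter (fun p => p ∣ D), zf ν p) *
        ∏ p ∈ W.filter (fun p => p ∣ D), (ν p x) ^ τ

/-- existence of the state -/
def Ext2Stmt : Prop :=
  ∀ (h : ℤ[X]) (lam : ℕ → ℕ) (r : ℕ → ℤ) (Hh : ℕ → ℤ[X]) (R : ℕ), AuxData h lam r Hh R →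
  1 ≤ h.natDegree →
  ∀ (N Nmin J : ℕ) (A : Finset ℤ) (α η : ℝ) (W : Finset ℕ) (blk : ℕ → ℕ),
    A ⊆ Icc (1 : ℤ) N → DiffFree h A → 0 < α → α * N ≤ A.card → 2 ≤ Nmin → Nmin ≤ N →
    0 < η → η ≤ 1 → 1 ≤ J → (∀ p ∈ W, p.Prime ∧ blk p < J) →
    (∀ i < J, ∏ p ∈ W.filter (fun p => blk p = i), p ≤ Nmin) →
    ∃ (d N' : ℕ) (Φ : ℝ) (G : ℤ → ℝ) (ν : ℕ → ℤ → ℝ), 1 ≤ d ∧ Nmin ≤ N' ∧ N' ≤ N ∧
      d * (N' - 1) ≤ N ∧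
      Φ ≤ 2 * Real.exp (-(1 / (2 * J : ℝ) * XX W ν)) ∧
      α * (N : ℝ) ^ η ≤ Φ * (N' : ℝ) ^ η * Real.exp (1 / (8 * J : ℝ) * XX W ν) ∧
      Pinned2 h.natDegree N' Nmin W (1 / (2 * J : ℝ)) η (1 / (8 * J : ℝ)) Φ G ν ∧
      (∀ n m : ℤ, G n ≠ 0 → G m ≠ 0 → ∀ x : ℕ, 1 ≤ x → n - m = (Hh d).eval (x : ℤ) → n = m)

end Vale.Agent.P042.SS2
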