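import Vale.Agent.P042.SS2.ExtZ

set_option autoImplicit false

/-!
State block of Theorem S2, part n: counting the integers that avoid a pattern (Bonferroni).
-/

namespace Vale.Agent.P042.SS2

open Polynomial Finset Vale.Agent.P042.SS

/-- Bonferroni inequality at a point -/
lemma bonf_point (B : Finset ℕ) (r : ℕ) :
    (if B = ∅ then (1 : ℝ) else 0) ≤
      ∑ S ∈ B.powerset.filter (fun S => S.card ≤ 2 * r), (-1 : ℝ) ^ S.card := by
  classical
  have key : (∑ S ∈ B.powerset.filter (fun S => S.card ≤ 2 * r), (-1 : ℤ) ^ S.card) =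
      ∑ m ∈ range (2 * r + 1), (-1 : ℤ) ^ m * (B.card.choose m : ℤ) := by
    rw [Finset.sum_filter]
    have h1 := Finset.sum_powerset_apply_card (fun m => if m ≤ 2 * r then (-1 : ℤ) ^ m else 0)
      (x := B)
    rw [h1]
    have h2 : ∀ m ∈ range (B.card + 1), B.card.choose m • (if m ≤ 2 * r then (-1 : ℤ) ^ m else 0) =
        if m ∈ range (2 * r + 1) then (-1 : ℤ) ^ m * (B.card.choose m : ℤ) else 0 := by
      intro m _
      rw [nsmul_eq_mul]
      by_cases h : m ≤ 2 * r
      · rw [if_pos h, if_pos (mem_range.2 (by omega))]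
        ring
      · rw [if_neg h, if_neg (fun h' => h (by rw [mem_range] at h'; omega)), mul_zero]
    rw [Finset.sum_congr rfl h2, ← Finset.sum_filter]
    refine Finset.sum_subset ?_ ?_
    · intro m hm
      exact (Finset.mem_filter.1 hm).2
    · intro m hm hn
      rw [Finset.mem_filter, not_and_or] at hn
      rcases hn with hn | hn
      · rw [mem_range, not_lt] at hn
        rw [Nat.choose_eq_zero_of_lt (by omega)]
        simp
      · exact absurd hm hn
  have h0 : (if B = ∅ then (1 : ℤ) else 0) ≤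
      ∑ S ∈ B.powerset.filter (fun S => S.card ≤ 2 * r), (-1 : ℤ) ^ S.card := by
    rw [key]
    rcases Nat.eq_zero_or_pos B.card with h | h
    · rw [if_pos (Finset.card_eq_zero.1 h), h, Finset.sum_range_succ']
      have : ∑ k ∈ range (2 * r), (-1 : ℤ) ^ (k + 1) * ((0 : ℕ).choose (k + 1) : ℤ) = 0 :=
        Finset.sum_eq_zero fun k _ => by simp
      rw [this]
      simp
    · obtain ⟨n, hn⟩ : ∃ n, B.card = n + 1 := ⟨B.card - 1, by omega⟩
      have hB : B ≠ ∅ := by
        intro hB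
        rw [hB, Finset.card_empty] at h
        exact lt_irrefl _ h
      rw [if_neg hB, hn, Int.alternating_sum_range_choose_eq_choose, pow_mul]
      simp
  have h1 : (((if B = ∅ then (1 : ℤ) else 0 : ℤ)) : ℝ) ≤
      ((∑ S ∈ B.powerset.filter (fun S => S.card ≤ 2 * r), (-1 : ℤ) ^ S.card : ℤ) : ℝ) := by
    exact_mod_cast h0
  push_cast at h1
  exact h1

/-- a mean one periodic function on an initial interval -/
lemma sum_psi_two {W : Finset ℕ} {ν : ℕ → ℤ → ℝ} (hW : Wts W ν)
    (hprime : ∀ p ∈ W, p.Prime) (V : Finset ℕ) (hV : V ⊆ W) (l : ℕ) :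
    |∑ n ∈ Icc (1 : ℤ) l, ∏ p ∈ V, ν p n - l| ≤ ((∏ p ∈ V, p : ℕ) : ℝ) := by
  set M : ℕ := ∏ p ∈ V, p with hM
  have hpos : 0 < M := Finset.prod_pos fun p hp => (hprime p (hV hp)).pos
  have hψ : ∀ n, 0 ≤ ∏ p ∈ V, ν p n := fun n => Finset.prod_nonneg fun p _ => hW.nn p n
  have hdm := Nat.div_add_mod l M
  have hml := Nat.mod_lt l hpos
  have h1 : l ≤ (l / M + 1) * M := by nlinarith only [hdm, hml]
  have h2 : l / M * M ≤ l := Nat.div_mul_le_self l M
  have h1' : (l : ℝ) ≤ ((l / M : ℕ) + 1 : ℝ) * M := by exact_mod_cast h1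
  have h2' : ((l / M : ℕ) : ℝ) * M ≤ l := by exact_mod_cast h2
  have e := fun K => sum_Icc_per (fun n => ∏ p ∈ V, ν p n) M K (exth_psi_per hW V hV)
  have e0 := psi_mean hW hprime V hV
  rw [← hM] at e0
  have h3 : ∑ n ∈ Icc (1 : ℤ) l, ∏ p ∈ V, ν p n ≤ ((l / M : ℕ) + 1 : ℝ) * M := by
    have h4 := e (l / M + 1)
    rw [e0] at h4
    push_cast at h4
    rw [← h4]
    refine Finset.sum_le_sum_of_subset_of_nonneg ?_ (fun n _ _ => hψ n)
    intro n hn
    rw [mem_Icc] at hn ⊢
    refine ⟨hn.1, hn.2.trans ?_⟩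
    exact_mod_cast h1
  have h5 : ((l / M : ℕ) : ℝ) * M ≤ ∑ n ∈ Icc (1 : ℤ) l, ∏ p ∈ V, ν p n := by
    have h4 := e (l / M)
    rw [e0] at h4
    rw [← h4]
    refine Finset.sum_le_sum_of_subset_of_nonneg ?_ (fun n _ _ => hψ n)
    intro n hn
    rw [mem_Icc] at hn ⊢
    refine ⟨hn.1, hn.2.trans ?_⟩
    exact_mod_cast h2
  rw [abs_le]
  constructor <;> linarith only [h1', h2', h3, h5]

open Classical in
/-- fraction of the positions of `T` at `p` -/
noncomputable def xf (T : Finset (ℕ × ℕ)) (p : ℕ) : ℝ :=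
  (((range p).filter (fun y : ℕ => (p, y) ∈ T)).card : ℝ) / p

lemma xf_nonneg (T : Finset (ℕ × ℕ)) (p : ℕ) : 0 ≤ xf T p := by unfold xf; positivity

lemma xf_le_one (T : Finset (ℕ × ℕ)) (p : ℕ) : xf T p ≤ 1 := by
  classical
  unfold xf
  rcases Nat.eq_zero_or_pos p with h | h
  · subst h; simp
  · rw [div_le_one (by exact_mod_cast h)]
    have h1 := Finset.card_filter_le (range p) (fun y : ℕ => (p, y) ∈ T)
    rw [Finset.card_range] at h1
    exact_mod_cast h1

lemma wt_eq {W : Finset ℕ} {T : Finset (ℕ × ℕ)} (hT : T ⊆ T0 W) : wt T = ∑ p ∈ W, xf T p := by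
  classical
  unfold wt
  rw [← Finset.sum_fiberwise_of_maps_to (g := Prod.fst) (t := W)
    (fun i hi => (mem_T0.1 (hT hi)).1)]
  refine Finset.sum_congr rfl fun p hp => ?_
  have h1 : T.filter (fun i => i.1 = p) =
      ((range p).filter (fun y : ℕ => (p, y) ∈ T)).image (fun y => (p, y)) := by
    ext i
    rw [Finset.mem_filter, Finset.mem_image]
    constructor
    · rintro ⟨h2, h3⟩
      have h4 := (mem_T0.1 (hT h2)).2
      subst h3
      exact ⟨i.2, Finset.mem_filter.2 ⟨mem_range.2 h4, h2⟩, rfl⟩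
    · rintro ⟨y, hy, rfl⟩
      exact ⟨(Finset.mem_filter.1 hy).2, rfl⟩
  rw [h1, Finset.sum_image (by
    intro a _ b _ hab
    exact (Prod.mk.inj hab).2)]
  unfold xf
  simp only [Finset.sum_const, nsmul_eq_mul]
  rw [mul_one_div]

open Classical in
/-- indicator of the pattern at `p` -/
noncomputable def ind (T : Finset (ℕ × ℕ)) (p : ℕ) (n : ℤ) : ℝ :=
  if (p, (n % (p : ℤ)).toNat) ∈ T then 1 else 0

lemma ind_per (T : Finset (ℕ × ℕ)) (p : ℕ) (n : ℤ) : ind T p (n + p) = ind T p n := by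
  unfold ind
  rw [Int.add_emod_right]

lemma ind_sum (T : Finset (ℕ × ℕ)) (p : ℕ) (hp : 0 < p) :
    ∑ x ∈ range p, ind T p (x : ℤ) = p * xf T p := by
  classical
  unfold xf ind
  have h1 : ∀ x ∈ range p, (if (p, ((x : ℤ) % (p : ℤ)).toNat) ∈ T then (1 : ℝ) else 0) =
      if (p, x) ∈ T then 1 else 0 := by
    intro x hx
    rw [mem_range] at hx
    have : ((x : ℤ) % (p : ℤ)).toNat = x := by
      rw [← Int.natCast_mod, Int.toNat_natCast, Nat.mod_eq_of_lt hx]
    rw [this]
  rw [Finset.sum_congr rfl h1, Finset.sum_ite, Finset.sum_const_zero, add_zero, Finset.sum_const,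
    nsmul_eq_mul, mul_one]
  have : (p : ℝ) ≠ 0 := by exact_mod_cast hp.ne'
  field_simp

/-- number of integers in all the classes of `S` -/
lemma count_ind {W : Finset ℕ} (hW : ∀ p ∈ W, p.Prime) (T : Finset (ℕ × ℕ)) (S : Finset ℕ)
    (hS : S ⊆ W) (l : ℕ) :
    |∑ n ∈ Icc (1 : ℤ) l, ∏ p ∈ S, ind T p n - l * ∏ p ∈ S, xf T p| ≤
      ∏ p ∈ S, ((p : ℝ) * xf T p) := by
  classical
  set μ : ℕ → ℤ → ℝ := fun p n => if xf T p = 0 then 1 else ind T p n / xf T p with hμ
  have hi0 : ∀ p n, 0 ≤ ind T p n := by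
    intro p n
    unfold ind
    split_ifs
    · exact zero_le_one
    · exact le_rfl
  have hzero : ∀ p ∈ W, xf T p = 0 → ∀ n, ind T p n = 0 := by
    intro p hp h0 n
    have hp0 := (hW p hp).pos
    have h1 := ind_sum T p hp0
    rw [h0, mul_zero] at h1
    have h2 := (Finset.sum_eq_zero_iff_of_nonneg (f := fun x : ℕ => ind T p (x : ℤ))
      fun x _ => hi0 p (x : ℤ)).1 h1
    have hp' : (0 : ℤ) < p := by exact_mod_cast hp0
    have h3 := h2 (n % (p : ℤ)).toNat (by
      rw [mem_range]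
      have := Int.emod_lt_of_pos n hp'
      have h4 := Int.emod_nonneg n hp'.ne'
      omega)
    rw [Int.toNat_of_nonneg (Int.emod_nonneg n hp'.ne')] at h3
    rw [← h3]
    exact per_congr (ind_per T p) (Int.mod_modEq n p).symm
  have hw : Wts W μ := by
    refine ⟨?_, ?_, ?_⟩
    · intro p n
      simp only [hμ]
      split_ifs
      · exact zero_le_one
      · exact div_nonneg (hi0 p n) (xf_nonneg T p)
    · intro p hp n
      simp only [hμ, ind_per]
    · intro p hp
      simp only [hμ]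
      by_cases h : xf T p = 0
      · simp only [h, if_true]
        simp
      · simp only [h, if_false]
        rw [← Finset.sum_div, ind_sum T p (hW p hp).pos]
        field_simp
  have hfac : ∀ n, ∏ p ∈ S, ind T p n = (∏ p ∈ S, xf T p) * ∏ p ∈ S, μ p n := by
    intro n
    rw [← Finset.prod_mul_distrib]
    refine Finset.prod_congr rfl fun p hp => ?_
    simp only [hμ]
    by_cases h : xf T p = 0
    · rw [if_pos h, hzero p (hS hp) h n, h, zero_mul]
    · rw [if_neg h]
      field_simp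
  have h1 := sum_psi_two hw hW S hS l
  have hx0 : 0 ≤ ∏ p ∈ S, xf T p := Finset.prod_nonneg fun p _ => xf_nonneg T p
  have h2 : ∑ n ∈ Icc (1 : ℤ) l, ∏ p ∈ S, ind T p n - l * ∏ p ∈ S, xf T p =
      (∏ p ∈ S, xf T p) * (∑ n ∈ Icc (1 : ℤ) l, ∏ p ∈ S, μ p n - l) := by
    rw [Finset.sum_congr rfl fun n _ => hfac n, ← Finset.mul_sum]
    ring
  rw [h2, abs_mul, abs_of_nonneg hx0, Finset.prod_mul_distrib, mul_comm]
  refine mul_le_mul_of_nonneg_right ?_ hx0
  push_cast at h1
  exact h1

/-- Bonferroni: few integers avoid the pattern -/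
theorem bonf {W : Finset ℕ} (hW : ∀ p ∈ W, p.Prime) (Y l : ℕ) (hY : ∀ p ∈ W, p ≤ Y)
    (T : Finset (ℕ × ℕ)) (hT : T ⊆ T0 W) (X1 : ℝ) (hX1 : wt T ≤ X1) (hl1 : 1 ≤ l)
    (hl : (16 * X1 + 8) * Real.log (Y + 1) + X1 ≤ Real.log l) :
    ∑ n ∈ Icc (1 : ℤ) l, (if (∀ p ∈ W, ind T p n = 0) then (1 : ℝ) else 0) ≤
      3 * l * Real.exp (-(wt T)) := by
  classical
  set X : ℝ := wt T with hX
  have hX0 : 0 ≤ X := wt_nonneg T
  have hl0 : (0 : ℝ) < l := by exact_mod_cast hl1
  rcases hX0.eq_or_lt with hXz | hXp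
  · rw [← hXz, neg_zero, Real.exp_zero, mul_one]
    calc _ ≤ ∑ n ∈ Icc (1 : ℤ) l, (1 : ℝ) := Finset.sum_le_sum fun n _ => by
          split_ifs
          · exact le_rfl
          · exact zero_le_one
      _ = l := by simp
      _ ≤ 3 * l := by linarith only [hl0]
  have hsum : ∑ p ∈ W, xf T p = X := (wt_eq hT).symm
  -- `2 ≤ Y`
  have hY2 : 2 ≤ Y := by
    have hne : W.Nonempty := by
      rw [Finset.nonempty_iff_ne_empty]
      rintro rfl
      rw [Finset.sum_empty] at hsum
      exact hXp.ne hsum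
    obtain ⟨p, hp⟩ := hne
    exact (hW p hp).two_le.trans (hY p hp)
  have hlogY : 1 ≤ Real.log ((Y : ℝ) + 1) := by
    rw [Real.le_log_iff_exp_le (by positivity)]
    have h1 := Real.exp_one_lt_d9
    have h2 : (2 : ℝ) ≤ Y := by exact_mod_cast hY2
    linarith only [h1, h2]
  obtain ⟨r, hr1, hr2⟩ : ∃ r : ℕ, 4 * X ≤ 2 * (r : ℝ) + 1 ∧ 2 * (r : ℝ) ≤ 4 * X + 2 := by
    refine ⟨⌈2 * X⌉₊, ?_, ?_⟩
    · have := Nat.le_ceil (2 * X)
      linarith only [this]
    · have := Nat.ceil_lt_add_one (show 0 ≤ 2 * X by positivity)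
      linarith only [this]
  set Ft : Finset (Finset ℕ) := W.powerset.filter (fun S => S.card ≤ 2 * r) with hFt
  have hi : ∀ p n, ind T p n = 0 ∨ ind T p n = 1 := by
    intro p n
    unfold ind
    split_ifs
    · exact Or.inr rfl
    · exact Or.inl rfl
  -- pointwise
  have hpt : ∀ n : ℤ, (if (∀ p ∈ W, ind T p n = 0) then (1 : ℝ) else 0) ≤
      ∑ S ∈ Ft, (-1 : ℝ) ^ S.card * ∏ p ∈ S, ind T p n := by
    intro n
    set B : Finset ℕ := W.filter (fun p => ind T p n ≠ 0) with hB
    have h1 : (∀ p ∈ W, ind T p n = 0) ↔ B = ∅ := by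
      rw [hB, Finset.filter_eq_empty_iff]
      simp only [ne_eq, not_not]
    have h2 : ∀ S ∈ Ft, (-1 : ℝ) ^ S.card * ∏ p ∈ S, ind T p n =
        if S ⊆ B then (-1 : ℝ) ^ S.card else 0 := by
      intro S hS
      rw [hFt, Finset.mem_filter, Finset.mem_powerset] at hS
      by_cases h3 : S ⊆ B
      · rw [if_pos h3, Finset.prod_eq_one, mul_one]
        intro p hp
        have h4 := (Finset.mem_filter.1 (h3 hp)).2
        rcases hi p n with h5 | h5
        · exact absurd h5 h4
        · exact h5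
      · rw [if_neg h3]
        rw [Finset.not_subset] at h3
        obtain ⟨p, hp, hpB⟩ := h3
        have h4 : ind T p n = 0 := by
          by_contra h5
          exact hpB (Finset.mem_filter.2 ⟨hS.1 hp, h5⟩)
        rw [Finset.prod_eq_zero hp h4, mul_zero]
    rw [Finset.sum_congr rfl h2, ← Finset.sum_filter]
    have h3 : Ft.filter (fun S => S ⊆ B) = B.powerset.filter (fun S => S.card ≤ 2 * r) := by
      ext S
      rw [hFt, Finset.mem_filter, Finset.mem_filter, Finset.mem_filter, Finset.mem_powerset,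
        Finset.mem_powerset]
      constructor
      · rintro ⟨⟨_, h4⟩, h5⟩
        exact ⟨h5, h4⟩
      · rintro ⟨h4, h5⟩
        exact ⟨⟨h4.trans (Finset.filter_subset _ _), h5⟩, h4⟩
    rw [h3]
    have h4 := bonf_point B r
    by_cases h5 : B = ∅
    · rw [if_pos (h1.2 h5)]
      rw [if_pos h5] at h4
      exact h4
    · rw [if_neg (fun h6 => h5 (h1.1 h6))]
      rw [if_neg h5] at h4
      exact h4
  -- sum over `n`
  have hmain : ∑ n ∈ Icc (1 : ℤ) l, (if (∀ p ∈ W, ind T p n = 0) then (1 : ℝ) else 0) ≤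
      l * (∑ S ∈ Ft, (-1 : ℝ) ^ S.card * ∏ p ∈ S, xf T p) +
        ∑ S ∈ Ft, ∏ p ∈ S, ((p : ℝ) * xf T p) := by
    refine (Finset.sum_le_sum fun n _ => hpt n).trans ?_
    rw [Finset.sum_comm, Finset.mul_sum, ← Finset.sum_add_distrib]
    refine Finset.sum_le_sum fun S hS => ?_
    have hSW : S ⊆ W := Finset.mem_powerset.1 (Finset.mem_filter.1 hS).1
    rw [← Finset.mul_sum]
    have h1 := count_ind hW T S hSW l
    rw [abs_le] at h1
    rcases neg_one_pow_eq_or ℝ S.card with h2 | h2
    · rw [h2]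
      linarith only [h1.2]
    · rw [h2]
      linarith only [h1.1]
  -- first part
  have hx0 : ∀ S : Finset ℕ, 0 ≤ ∏ p ∈ S, xf T p := fun S =>
    Finset.prod_nonneg fun p _ => xf_nonneg T p
  have hfirst : ∑ S ∈ Ft, (-1 : ℝ) ^ S.card * ∏ p ∈ S, xf T p ≤
      Real.exp (-X) + Real.exp (-X) := by
    have h1 : ∏ p ∈ W, (1 + -(xf T p)) =
        ∑ S ∈ W.powerset, (-1 : ℝ) ^ S.card * ∏ p ∈ S, xf T p := by
      rw [Finset.prod_one_add]
      refine Finset.sum_congr rfl fun S _ => ?_
      rw [Finset.prod_neg]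
    have h2 := Finset.sum_filter_add_sum_filter_not W.powerset (fun S => S.card ≤ 2 * r)
      (fun S => (-1 : ℝ) ^ S.card * ∏ p ∈ S, xf T p)
    rw [← h1, ← hFt] at h2
    have h3 : ∏ p ∈ W, (1 + -(xf T p)) ≤ Real.exp (-X) := by
      rw [← hsum, ← Finset.sum_neg_distrib, Real.exp_sum]
      refine Finset.prod_le_prod (fun p _ => ?_) fun p _ => ?_
      · have := xf_le_one T p
        linarith only [this]
      · have := Real.add_one_le_exp (-(xf T p))
        linarith only [this]
    have h4 : -(∑ S ∈ W.powerset.filter (fun S => ¬ S.card ≤ 2 * r),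
        (-1 : ℝ) ^ S.card * ∏ p ∈ S, xf T p) ≤ Real.exp (-X) := by
      have h5 : -(∑ S ∈ W.powerset.filter (fun S => ¬ S.card ≤ 2 * r),
          (-1 : ℝ) ^ S.card * ∏ p ∈ S, xf T p) ≤
          ∑ S ∈ W.powerset, Real.exp (-(2 * (r : ℝ) + 1)) *
            ∏ p ∈ S, (Real.exp 1 * xf T p) := by
        rw [← Finset.sum_neg_distrib]
        calc _ ≤ ∑ S ∈ W.powerset.filter (fun S => ¬ S.card ≤ 2 * r),
              Real.exp (-(2 * (r : ℝ) + 1)) * ∏ p ∈ S, (Real.exp 1 * xf T p) := by
              refine Finset.sum_le_sum fun S hS => ?_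
              have h6 := (Finset.mem_filter.1 hS).2
              rw [Finset.prod_mul_distrib, Finset.prod_const, ← Real.exp_nat_mul, mul_one,
                ← mul_assoc, ← Real.exp_add]
              have h7 : (1 : ℝ) ≤ Real.exp (-(2 * (r : ℝ) + 1) + S.card) := by
                apply Real.one_le_exp
                have : (2 * r + 1 : ℕ) ≤ S.card := by omega
                have h8 : ((2 * r + 1 : ℕ) : ℝ) ≤ S.card := by exact_mod_cast this
                push_cast at h8
                linarith only [h8]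
              have h9 : -((-1 : ℝ) ^ S.card * ∏ p ∈ S, xf T p) ≤ 1 * ∏ p ∈ S, xf T p := by
                rcases neg_one_pow_eq_or ℝ S.card with h2 | h2
                · rw [h2]
                  linarith only [hx0 S]
                · rw [h2]
                  linarith only [hx0 S]
              exact h9.trans (mul_le_mul_of_nonneg_right h7 (hx0 S))
          _ ≤ _ := by
              refine Finset.sum_le_sum_of_subset_of_nonneg (Finset.filter_subset _ _) ?_
              intro S _ _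
              refine mul_nonneg (Real.exp_pos _).le (Finset.prod_nonneg fun p _ => ?_)
              exact mul_nonneg (Real.exp_pos _).le (xf_nonneg T p)
      refine h5.trans ?_
      rw [← Finset.mul_sum, ← Finset.prod_one_add]
      have h6 : ∏ p ∈ W, (1 + Real.exp 1 * xf T p) ≤ Real.exp (Real.exp 1 * X) := by
        rw [← hsum, Finset.mul_sum, Real.exp_sum]
        refine Finset.prod_le_prod (fun p _ => ?_) fun p _ => ?_
        · have := mul_nonneg (Real.exp_pos 1).le (xf_nonneg T p)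
          linarith only [this]
        · have := Real.add_one_le_exp (Real.exp 1 * xf T p)
          linarith only [this]
      calc Real.exp (-(2 * (r : ℝ) + 1)) * ∏ p ∈ W, (1 + Real.exp 1 * xf T p)
          ≤ Real.exp (-(2 * (r : ℝ) + 1)) * Real.exp (Real.exp 1 * X) :=
            mul_le_mul_of_nonneg_left h6 (Real.exp_pos _).le
        _ = Real.exp (-(2 * (r : ℝ) + 1) + Real.exp 1 * X) := by rw [Real.exp_add]
        _ ≤ Real.exp (-X) := by
            apply Real.exp_le_exp.2
            have h7 := Real.exp_one_lt_d9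
            nlinarith only [h7, hr1, hXp]
    linarith only [h2, h3, h4]
  -- second part
  have hsecond : ∑ S ∈ Ft, ∏ p ∈ S, ((p : ℝ) * xf T p) ≤ l * Real.exp (-X) := by
    have hY1 : (1 : ℝ) ≤ (Y : ℝ) + 1 := by
      have : (0 : ℝ) ≤ Y := Nat.cast_nonneg Y
      linarith only [this]
    have h1 : ∑ S ∈ Ft, ∏ p ∈ S, ((p : ℝ) * xf T p) ≤
        ∑ S ∈ W.powerset, ((Y : ℝ) + 1) ^ (2 * r) * ∏ p ∈ S, xf T p := by
      calc _ ≤ ∑ S ∈ Ft, ((Y : ℝ) + 1) ^ (2 * r) * ∏ p ∈ S, xf T p := by
            refine Finset.sum_le_sum fun S hS => ?_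
            rw [hFt, Finset.mem_filter, Finset.mem_powerset] at hS
            rw [Finset.prod_mul_distrib]
            refine mul_le_mul_of_nonneg_right ?_ (hx0 S)
            calc ∏ p ∈ S, (p : ℝ) ≤ ∏ p ∈ S, ((Y : ℝ) + 1) := by
                  refine Finset.prod_le_prod (fun p _ => Nat.cast_nonneg p) fun p hp => ?_
                  have : (p : ℝ) ≤ Y := by exact_mod_cast hY p (hS.1 hp)
                  linarith only [this]
              _ = ((Y : ℝ) + 1) ^ S.card := by rw [Finset.prod_const]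
              _ ≤ _ := pow_le_pow_right₀ hY1 hS.2
        _ ≤ _ := by
            refine Finset.sum_le_sum_of_subset_of_nonneg (Finset.filter_subset _ _) ?_
            intro S _ _
            exact mul_nonneg (by positivity) (hx0 S)
    refine h1.trans ?_
    rw [← Finset.mul_sum, ← Finset.prod_one_add]
    have h2 : ∏ p ∈ W, (1 + xf T p) ≤ Real.exp X := by
      rw [← hsum, Real.exp_sum]
      refine Finset.prod_le_prod (fun p _ => ?_) fun p _ => ?_
      · have := xf_nonneg T p
        linarith only [this]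
      · have := Real.add_one_le_exp (xf T p)
        linarith only [this]
    have h3 : ((Y : ℝ) + 1) ^ (2 * r) = Real.exp (2 * r * Real.log ((Y : ℝ) + 1)) := by
      rw [← Real.rpow_natCast, Real.rpow_def_of_pos (by linarith only [hY1])]
      congr 1
      push_cast
      ring
    have h4 : (l : ℝ) = Real.exp (Real.log l) := (Real.exp_log hl0).symm
    calc ((Y : ℝ) + 1) ^ (2 * r) * ∏ p ∈ W, (1 + xf T p)
        ≤ ((Y : ℝ) + 1) ^ (2 * r) * Real.exp X :=
          mul_le_mul_of_nonneg_left h2 (by positivity)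
      _ = Real.exp (2 * r * Real.log ((Y : ℝ) + 1) + X) := by rw [h3, Real.exp_add]
      _ ≤ Real.exp (Real.log l + -X) := by
          apply Real.exp_le_exp.2
          have h5 : 2 * (r : ℝ) * Real.log ((Y : ℝ) + 1) ≤ (4 * X + 2) * Real.log ((Y : ℝ) + 1) :=
            mul_le_mul_of_nonneg_right hr2 (by linarith only [hlogY])
          have h6 : (12 * X + 6) * 1 ≤ (12 * X + 6) * Real.log ((Y : ℝ) + 1) :=
            mul_le_mul_of_nonneg_left hlogY (by linarith only [hXp])
          have h7 : (16 * X + 8) * Real.log ((Y : ℝ) + 1) ≤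
              (16 * X1 + 8) * Real.log ((Y : ℝ) + 1) :=
            mul_le_mul_of_nonneg_right (by linarith only [hX1]) (by linarith only [hlogY])
          nlinarith only [h5, h6, h7, hl, hX1, hXp]
      _ = l * Real.exp (-X) := by rw [Real.exp_add, ← h4]
  have h5 : (l : ℝ) * (∑ S ∈ Ft, (-1 : ℝ) ^ S.card * ∏ p ∈ S, xf T p) ≤
      l * (Real.exp (-X) + Real.exp (-X)) := mul_le_mul_of_nonneg_left hfirst hl0.le
  refine hmain.trans ?_
  linarith only [h5, hsecond]

end Vale.Agent.P042.SS2
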