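import Vale.Agent.P042.SS2.ExtM
import Vale.Agent.P042.SS2.ExtN

set_option autoImplicit false

/-!
State block of Theorem S2, part c: the class bound (KLV).
-/

namespace Vale.Agent.P042.SS2

open Polynomial Finset Pointwise Vale.Agent.P042.SS

section aux
variable {h : ℤ[X]} {lam : ℕ → ℕ} {r : ℕ → ℤ} {Hh : ℕ → ℤ[X]} {R : ℕ}

open Classical in
/-- pattern pulled back to a progression -/
noncomputable def TB (W : Finset ℕ) (ν : ℕ → ℤ → ℝ) (D : ℕ) (b : ℤ) (L : ℕ) : Finset (ℕ × ℕ) :=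
  (T0 W).filter fun i => ¬ i.1 ∣ D ∧ ν i.1 (b + L * (i.2 : ℤ)) = 0

lemma TB_sub (W : Finset ℕ) (ν : ℕ → ℤ → ℝ) (D : ℕ) (b : ℤ) (L : ℕ) : TB W ν D b L ⊆ T0 W :=
  Finset.filter_subset _ _

lemma wt_TB {W : Finset ℕ} {ν : ℕ → ℤ → ℝ} (hper : ∀ p ∈ W, ∀ n, ν p (n + p) = ν p n)
    (hpos : ∀ p ∈ W, 0 < p) (D : ℕ) (b : ℤ) (L : ℕ)
    (hL : ∀ p ∈ W, ¬ p ∣ D → Nat.Coprime L p) :
    wt (TB W ν D b L) + ∑ p ∈ W.filter (fun p => p ∣ D), zf ν p = XX W ν := by
  classical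
  rw [wt_eq (TB_sub W ν D b L), Finset.sum_filter, ← Finset.sum_add_distrib]
  unfold XX
  refine Finset.sum_congr rfl fun p hp => ?_
  by_cases hpD : p ∣ D
  · rw [if_pos hpD]
    have h1 : xf (TB W ν D b L) p = 0 := by
      unfold xf
      rw [Finset.card_eq_zero.2, Nat.cast_zero, zero_div]
      rw [Finset.filter_eq_empty_iff]
      intro y _ hy
      exact (Finset.mem_filter.1 hy).2.1 hpD
    rw [h1, zero_add]
  · rw [if_neg hpD, add_zero]
    have h1 : xf (TB W ν D b L) p =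
        (∑ x ∈ range p, (if ν p (b + L * (x : ℤ)) = 0 then (1 : ℝ) else 0)) / p := by
      unfold xf
      rw [Finset.sum_ite, Finset.sum_const_zero, add_zero, Finset.sum_const, nsmul_eq_mul, mul_one]
      congr 3
      refine Finset.filter_congr fun y hy => ?_
      unfold TB
      rw [Finset.mem_filter, mem_T0]
      constructor
      · rintro ⟨_, _, h2⟩
        exact h2
      · intro h2
        exact ⟨⟨hp, mem_range.1 hy⟩, hpD, h2⟩
    rw [h1, zf_eq_sum]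
    congr 1
    exact sum_affine (f := fun x : ℤ => if ν p x = 0 then (1 : ℝ) else 0)
      (fun n => by simp only [hper p hp]) (hpos p hp) b L (hL p hp hpD)

/-- the value of a block in terms of a new state -/
lemma block_eq2 (hA : AuxData h lam r Hh R) (A : Finset ℤ) {W : Finset ℕ}
    (hW : ∀ p ∈ W, p.Prime) (τ : ℝ) (d : ℕ) (a : ℤ) (hd : 1 ≤ d)
    (l : ℕ) {ν : ℕ → ℤ → ℝ} (hν : Wts W ν) (D m : ℕ) (hD : 1 ≤ D) (x : ℤ) (h1 : 1 ≤ x + lam D)
    (h2 : x + lam D * m ≤ l) (U : Finset ℕ) (F : ℕ → ℤ → ℝ) (hU : U ⊆ W)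
    (hUD : ∀ p ∈ U, ¬ p ∣ D) (hF0 : ∀ p n, 0 ≤ F p n) (hFper : ∀ p ∈ U, ∀ n, F p (n + p) = F p n)
    (hFm : ∀ p ∈ U, ∑ x ∈ range p, ν p x * F p x = p) :
    ∃ ν' : ℕ → ℤ → ℝ, Wts W ν' ∧ (∀ i ∈ TB W ν D x (lam D), ν' i.1 (i.2 : ℤ) = 0) ∧
      wt (TB W ν D x (lam D)) + ∑ p ∈ W.filter (fun p => p ∣ D), zf ν p = XX W ν ∧
      ∑ j ∈ Icc (1 : ℤ) m, Gst lam A W τ d a l ν (x + lam D * j) *
        ∏ p ∈ U, (F p (x + lam D * j)) ^ τ =
      Sst (gA lam A (d * D) (a + lam d * x)) W τ m ν' *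
        ∏ p ∈ W.filter (fun p => p ∣ D), (ν p x) ^ τ := by
  classical
  have hDl : D ∣ lam D := (hA.hdvd D hD).1
  have hlD : lam D ∣ D ^ h.natDegree := (hA.hdvd D hD).2
  have hl1 : (1 : ℤ) ≤ lam D := by exact_mod_cast hA.lam_pos D hD
  have hcopr : ∀ p ∈ W, ¬ p ∣ D → Nat.Coprime (lam D) p := by
    intro p hp hpD
    have hpp := hW p hp
    rw [Nat.coprime_comm, hpp.coprime_iff_not_dvd]
    intro hdv
    exact hpD (hpp.dvd_of_dvd_pow (hdv.trans hlD))
  -- the local weights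
  set μ : ℕ → ℤ → ℝ := fun p n => if p ∈ U then ν p n * F p n else ν p n with hμ
  have hμ0 : ∀ p n, 0 ≤ μ p n := by
    intro p n
    simp only [hμ]
    split_ifs
    · exact mul_nonneg (hν.nn p n) (hF0 p n)
    · exact hν.nn p n
  have hμper : ∀ p ∈ W, ∀ n, μ p (n + p) = μ p n := by
    intro p hp n
    simp only [hμ]
    split_ifs with h3
    · rw [hν.per p hp n, hFper p h3 n]
    · exact hν.per p hp n
  have hμm : ∀ p ∈ W, ∑ x ∈ range p, μ p x = p := by
    intro p hp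
    simp only [hμ]
    split_ifs with h3
    · exact hFm p h3
    · exact hν.mean p hp
  have hμz : ∀ p n, ν p n = 0 → μ p n = 0 := by
    intro p n h0
    simp only [hμ]
    split_ifs
    · rw [h0, zero_mul]
    · exact h0
  set ν' : ℕ → ℤ → ℝ := fun p j => if ¬ p ∣ D then μ p (x + lam D * j) else 1 with hν'
  refine ⟨ν', ⟨?_, ?_, ?_⟩, ?_, wt_TB hν.per (fun p hp => (hW p hp).pos) D x (lam D) hcopr, ?_⟩
  · intro p n
    simp only [hν']
    split_ifs
    · exact zero_le_one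
    · exact hμ0 _ _
  · intro p hp n
    by_cases hpD : p ∣ D
    · simp only [hν', hpD, not_true_eq_false, if_false]
    · simp only [hν', hpD, not_false_eq_true, if_true]
      apply per_congr (hμper p hp)
      apply Int.ModEq.add_left
      rw [mul_add]
      have : (lam D : ℤ) * n + lam D * p ≡ lam D * n + 0 [ZMOD (p : ℕ)] :=
        Int.ModEq.add_left _ (Int.modEq_zero_iff_dvd.2 ⟨lam D, mul_comm _ _⟩)
      rwa [add_zero] at this
  · intro p hp
    by_cases hpD : p ∣ D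
    · simp only [hν', hpD, not_true_eq_false, if_false]
      simp
    · simp only [hν', hpD, not_false_eq_true, if_true]
      rw [sum_affine (hμper p hp) (hW p hp).pos x (lam D) (hcopr p hp hpD)]
      exact hμm p hp
  · intro i hi
    unfold TB at hi
    obtain ⟨h3, h4, h5⟩ := Finset.mem_filter.1 hi
    simp only [hν', h4, not_false_eq_true, if_true]
    exact hμz _ _ h5
  · unfold Sst
    rw [Finset.sum_mul]
    refine Finset.sum_congr rfl fun j hj => ?_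
    rw [Finset.mem_Icc] at hj
    have h3 : 1 ≤ x + lam D * j ∧ x + lam D * j ≤ l := by
      have h4 : (lam D : ℤ) * 1 ≤ lam D * j := mul_le_mul_of_nonneg_left hj.1 (by linarith only [hl1])
      have h5 : (lam D : ℤ) * j ≤ lam D * m := mul_le_mul_of_nonneg_left hj.2 (by linarith only [hl1])
      constructor <;> linarith only [h4, h5, h1, h2]
    unfold Gst
    rw [if_pos h3, mul_assoc, mul_assoc]
    congr 1
    · unfold gA
      have e1 : a + lam d * (x + lam D * j) = a + lam d * x + lam (d * D) * j := by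
        rw [hA.hmul d D hd hD]
        push_cast
        ring
      rw [e1]
    · have e2 : ∏ p ∈ U, (F p (x + lam D * j)) ^ τ =
          ∏ p ∈ W, (if p ∈ U then (F p (x + lam D * j)) ^ τ else 1) := by
        rw [← Finset.prod_filter]
        congr 1
        ext p
        simp only [mem_filter]
        exact ⟨fun h => ⟨hU h, h⟩, fun h => h.2⟩
      rw [e2, Finset.prod_filter, ← Finset.prod_mul_distrib, ← Finset.prod_mul_distrib]
      refine Finset.prod_congr rfl fun p hp => ?_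
      by_cases hpD : p ∣ D
      · have hpU : p ∉ U := fun h => hUD p h hpD
        simp only [hν', hpD, hpU, not_true_eq_false, if_false, if_true, Real.one_rpow, one_mul,
          mul_one]
        congr 1
        apply per_congr (hν.per p hp)
        have h4 : (p : ℤ) ∣ lam D * j :=
          Dvd.dvd.mul_right (by exact_mod_cast hpD.trans hDl) j
        have h5 : x + lam D * j ≡ x + 0 [ZMOD (p : ℕ)] :=
          Int.ModEq.add_left _ (Int.modEq_zero_iff_dvd.2 h4)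
        rwa [add_zero] at h5
      · simp only [hν', hpD, not_false_eq_true, if_true, if_false, mul_one, hμ]
        by_cases hpU : p ∈ U
        · simp only [hpU, if_true]
          rw [Real.mul_rpow (hν.nn _ _) (hF0 _ _)]
        · simp only [hpU, if_false, mul_one]

/-- the bound for windows in residue classes, with test functions -/
theorem klv_state (hA : AuxData h lam r Hh R) {N Nmin : ℕ} (A : Finset ℤ) (hNmin : 2 ≤ Nmin)
    {W : Finset ℕ} (hW : ∀ p ∈ W, p.Prime) (τ η ξ : ℝ) (hη : 0 < η) (hη1 : η ≤ 1)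
    {d : ℕ} {a : ℤ} {l : ℕ} {ν : ℕ → ℤ → ℝ} (hs : Adm lam N Nmin d a l) (hν : Wts W ν) (X1 : ℝ)
    (hXX1 : XX W ν ≤ X1)
    (hmax : ∀ (d' : ℕ) (a' : ℤ) (l' : ℕ) (ν' : ℕ → ℤ → ℝ) (T' : Finset (ℕ × ℕ)),
        Adm lam N Nmin d' a' l' → Wts W ν' → T' ⊆ T0 W → (∀ t ∈ T', ν' t.1 (t.2 : ℤ) = 0) →
        wt T' ≤ X1 →
        (l' : ℝ) ^ (η - 1) * Sst (gA lam A d' a') W τ l' ν' * Real.exp (ξ * wt T') ≤
          (l : ℝ) ^ (η - 1) * Sst (gA lam A d a) W τ l ν * Real.exp (ξ * XX W ν))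
    (Φ : ℝ) (hΦ0 : 0 ≤ Φ) (hΦ : Sst (gA lam A d a) W τ l ν = l * Φ)
    (D M : ℕ) (y x : ℤ) (hD : 1 ≤ D) (hM : D ^ h.natDegree * Nmin ≤ M)
    (hl : D ^ h.natDegree * Nmin ≤ l) (U : Finset ℕ) (F : ℕ → ℤ → ℝ) (hU : U ⊆ W)
    (hUD : ∀ p ∈ U, ¬ p ∣ D) (hF0 : ∀ p n, 0 ≤ F p n) (hFper : ∀ p ∈ U, ∀ n, F p (n + p) = F p n)
    (hFm : ∀ p ∈ U, ∑ x ∈ range p, ν p x * F p x = p) :
    mass (fun n => Gst lam A W τ d a l ν n * ∏ p ∈ U, (F p n) ^ τ) y M D x ≤
      (M : ℝ) / D * Φ * (1 + (D : ℝ) ^ h.natDegree / M) *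
        ((l * (D : ℝ) ^ h.natDegree / M) ^ η) *
        Real.exp (ξ * ∑ p ∈ W.filter (fun p => p ∣ D), zf ν p) *
        ∏ p ∈ W.filter (fun p => p ∣ D), (ν p x) ^ τ := by
  classical
  obtain ⟨hd, hlmin, hs1, hs2⟩ := hs
  have hDl : D ∣ lam D := (hA.hdvd D hD).1
  have hlD : lam D ≤ D ^ h.natDegree := hA.lam_le D hD
  have hL : 1 ≤ lam D := hA.lam_pos D hD
  have hld : 1 ≤ lam d := hA.lam_pos d hd
  set Gt : ℤ → ℝ := fun n => Gst lam A W τ d a l ν n * ∏ p ∈ U, (F p n) ^ τ with hGt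
  have hFp0 : ∀ n, 0 ≤ ∏ p ∈ U, (F p n) ^ τ := fun n =>
    Finset.prod_nonneg fun p _ => Real.rpow_nonneg (hF0 p n) _
  have hG0 : ∀ n, 0 ≤ Gt n := fun n =>
    mul_nonneg (Gst_nonneg (lam := lam) A (W := W) τ d a l hν.nn n) (hFp0 n)
  have hGs : ∀ n, Gt n ≠ 0 → 1 ≤ n ∧ n ≤ l := fun n hn =>
    (Gst_supp n (left_ne_zero_of_mul hn)).1
  have hl0 : (0 : ℝ) < l := by
    have : 0 < l := by omega
    exact_mod_cast this
  set Pr : ℝ := ∏ p ∈ W.filter (fun p => p ∣ D), (ν p x) ^ τ with hPr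
  have hPr0 : 0 ≤ Pr := Finset.prod_nonneg fun p _ => Real.rpow_nonneg (hν.nn p x) _
  set Ez : ℝ := Real.exp (ξ * ∑ p ∈ W.filter (fun p => p ∣ D), zf ν p) with hEz
  have hEz0 : 0 < Ez := Real.exp_pos _
  have hM1 : 1 ≤ M := by
    have : 1 ≤ D ^ h.natDegree := Nat.one_le_pow _ _ hD
    have : 1 * 1 ≤ D ^ h.natDegree * Nmin := Nat.mul_le_mul this (by omega)
    omega
  have hclass : ∀ c : ℕ, mass Gt y M (lam D) (x + D * c) ≤
      ((M : ℝ) / lam D + 1) ^ (1 - η) * (l : ℝ) ^ η * Φ * Ez * Pr := by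
    intro c
    obtain ⟨x', m, hm1, hm2, hm3, hm4, hm5, hm6⟩ := prog_bound hG0 hGs (lam D) M Nmin hL
      ((Nat.mul_le_mul_right _ hlD).trans hM) ((Nat.mul_le_mul_right _ hlD).trans hl) y
      (x + D * c)
    obtain ⟨ν', hν', hz', hXX, hb⟩ := block_eq2 hA A hW τ d a hd l hν D m hD x' hm3 hm4 U F hU hUD
      hF0 hFper hFm
    have hzf0 : 0 ≤ ∑ p ∈ W.filter (fun p => p ∣ D), zf ν p :=
      Finset.sum_nonneg fun p _ => zf_nonneg ν p
    set T' : Finset (ℕ × ℕ) := TB W ν D x' (lam D) with hT'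
    have hx' : ∀ p ∈ W.filter (fun p => p ∣ D), (ν p x') ^ τ = (ν p x) ^ τ := by
      intro p hp
      rw [Finset.mem_filter] at hp
      congr 1
      apply per_congr (hν.per p hp.1)
      have h1 : x' ≡ x + D * c [ZMOD (p : ℕ)] := hm5.of_dvd (by exact_mod_cast hp.2.trans hDl)
      have h2 : x + (D : ℤ) * c ≡ x + 0 [ZMOD (p : ℕ)] :=
        Int.ModEq.add_left _ (Int.modEq_zero_iff_dvd.2
          (Dvd.dvd.mul_right (by exact_mod_cast hp.2) _))
      rw [add_zero] at h2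
      exact h1.trans h2
    have hb' : ∑ j ∈ Icc (1 : ℤ) m, Gt (x' + lam D * j) =
        Sst (gA lam A (d * D) (a + lam d * x')) W τ m ν' * Pr := by
      rw [hPr, ← Finset.prod_congr rfl hx']
      exact hb
    rw [hb'] at hm6
    have hadm : Adm lam N Nmin (d * D) (a + lam d * x') m := by
      refine ⟨Nat.mul_pos hd hD, hm1, ?_, ?_⟩
      · rw [hA.hmul d D hd hD]
        push_cast
        have h1 : (lam d : ℤ) * 1 ≤ lam d * (x' + lam D) :=
          mul_le_mul_of_nonneg_left hm3 (Int.natCast_nonneg _)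
        linarith only [h1, hs1]
      · rw [hA.hmul d D hd hD]
        push_cast
        have h1 : (lam d : ℤ) * (x' + lam D * m) ≤ lam d * l :=
          mul_le_mul_of_nonneg_left hm4 (Int.natCast_nonneg _)
        linarith only [h1, hs2]
    have h3 := hmax _ _ _ ν' T' hadm hν' (TB_sub _ _ _ _ _) hz' (by linarith only [hXX, hzf0, hXX1])
    rw [hΦ] at h3
    have hm0 : (0 : ℝ) < m := by
      have : 0 < m := by omega
      exact_mod_cast this
    have hS0 : 0 ≤ Sst (gA lam A (d * D) (a + lam d * x')) W τ m ν' :=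
      Sst_nonneg (fun n => gA_nonneg _ _ _ _ _) τ m hν'.nn
    -- value of the new state
    have h4 : Sst (gA lam A (d * D) (a + lam d * x')) W τ m ν' ≤
        (m : ℝ) ^ (1 - η) * (l : ℝ) ^ η * Φ * Ez := by
      have e1 : (m : ℝ) ^ (1 - η) * (m : ℝ) ^ (η - 1) = 1 := by
        rw [← Real.rpow_add hm0]
        norm_num
      have e2 : (l : ℝ) ^ (η - 1) * (l : ℝ) = (l : ℝ) ^ η := by
        rw [← Real.rpow_add_one hl0.ne']
        norm_num
      have e3 : Real.exp (ξ * XX W ν) ≤ Real.exp (ξ * wt T') * Ez := by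
        rw [hEz, ← Real.exp_add, ← mul_add, hXX]
      have hlη : 0 ≤ (l : ℝ) ^ η := Real.rpow_nonneg hl0.le _
      have e4 : (m : ℝ) ^ (η - 1) * Sst (gA lam A (d * D) (a + lam d * x')) W τ m ν' ≤
          (l : ℝ) ^ η * Φ * Ez := by
        have h5 : (m : ℝ) ^ (η - 1) * Sst (gA lam A (d * D) (a + lam d * x')) W τ m ν' *
            Real.exp (ξ * wt T') ≤ ((l : ℝ) ^ η * Φ * Ez) * Real.exp (ξ * wt T') := by
          calc _ ≤ (l : ℝ) ^ (η - 1) * (l * Φ) * Real.exp (ξ * XX W ν) := h3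
            _ = (l : ℝ) ^ η * Φ * Real.exp (ξ * XX W ν) := by rw [← e2]; ring
            _ ≤ (l : ℝ) ^ η * Φ * (Real.exp (ξ * wt T') * Ez) :=
                mul_le_mul_of_nonneg_left e3 (mul_nonneg hlη hΦ0)
            _ = _ := by ring
        exact le_of_mul_le_mul_right h5 (Real.exp_pos _)
      calc Sst (gA lam A (d * D) (a + lam d * x')) W τ m ν'
          = (m : ℝ) ^ (1 - η) * ((m : ℝ) ^ (η - 1) *
            Sst (gA lam A (d * D) (a + lam d * x')) W τ m ν') := by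
            rw [← mul_assoc, e1, one_mul]
        _ ≤ (m : ℝ) ^ (1 - η) * ((l : ℝ) ^ η * Φ * Ez) :=
            mul_le_mul_of_nonneg_left e4 (Real.rpow_nonneg hm0.le _)
        _ = (m : ℝ) ^ (1 - η) * (l : ℝ) ^ η * Φ * Ez := by ring
    have h5 : (m : ℝ) ^ (1 - η) ≤ ((M : ℝ) / lam D + 1) ^ (1 - η) :=
      Real.rpow_le_rpow hm0.le hm2 (by linarith only [hη1])
    have h6 : 0 ≤ (l : ℝ) ^ η := Real.rpow_nonneg hl0.le _
    calc mass Gt y M (lam D) (x + D * c)
        ≤ Sst (gA lam A (d * D) (a + lam d * x')) W τ m ν' * Pr := hm6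
      _ ≤ ((m : ℝ) ^ (1 - η) * (l : ℝ) ^ η * Φ * Ez) * Pr := mul_le_mul_of_nonneg_right h4 hPr0
      _ ≤ ((M : ℝ) / lam D + 1) ^ (1 - η) * (l : ℝ) ^ η * Φ * Ez * Pr := by
          gcongr
  have hsum := mass_split hG0 y M D (lam D) x hD hL hDl
  refine hsum.trans ((Finset.sum_le_sum fun c _ => hclass c).trans ?_)
  rw [Finset.sum_const, Finset.card_range, nsmul_eq_mul]
  have e3 : ((lam D / D : ℕ) : ℝ) = (lam D : ℝ) / D := Nat.cast_div hDl (by
    have : D ≠ 0 := by omega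
    exact_mod_cast this)
  rw [e3]
  have h7 := sb_num (lam D) D M l ((D : ℝ) ^ h.natDegree) η hL hD hM1 (by exact_mod_cast hlD) hη
  calc (lam D : ℝ) / D * (((M : ℝ) / lam D + 1) ^ (1 - η) * (l : ℝ) ^ η * Φ * Ez * Pr)
      = ((lam D : ℝ) / D * (((M : ℝ) / lam D + 1) ^ (1 - η) * (l : ℝ) ^ η)) * (Φ * Ez * Pr) := by
        ring
    _ ≤ ((M : ℝ) / D * (1 + (D : ℝ) ^ h.natDegree / M) *
        ((l * (D : ℝ) ^ h.natDegree / M) ^ η)) * (Φ * Ez * Pr) :=
        mul_le_mul_of_nonneg_right h7 (mul_nonneg (mul_nonneg hΦ0 hEz0.le) hPr0)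
    _ = _ := by ring

end aux

end Vale.Agent.P042.SS2
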