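import Vale.Agent.P042.SS2.ExtK

set_option autoImplicit false

/-!
State block of Theorem S2, part d: lower bound of the weights and existence of the state.
-/

namespace Vale.Agent.P042.SS2

open Polynomial Finset Pointwise Vale.Agent.P042.SS

lemma TP_sub (W : Finset ℕ) (ν : ℕ → ℤ → ℝ) : TP W ν ⊆ T0 W := Finset.filter_subset _ _

lemma XX_wt (W : Finset ℕ) (ν : ℕ → ℤ → ℝ) : XX W ν = wt (TP W ν) := XX_eq_TP W ν

/-- removing a class with small weight -/
theorem low_state {l : ℕ} {W : Finset ℕ} {τ ξ X1 : ℝ} {g : ℤ → ℝ} {ν : ℕ → ℤ → ℝ}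
    (hW : ∀ p ∈ W, p.Prime) (hν : Wts W ν) (hτ0 : 0 < τ) (hξ0 : 0 ≤ ξ) (hξ1 : ξ ≤ 1)
    (hX : XX W ν + 1 ≤ X1) {G : ℤ → ℝ}
    (hG : ∀ n ∈ Icc (1 : ℤ) l, G n = g n * ∏ p ∈ W, (ν p n) ^ τ) {Φ : ℝ} (hS : 0 < l * Φ)
    (hSst : Sst g W τ l ν = l * Φ)
    (hmarg : ∀ p ∈ W, ∀ x : ℤ, mass G 0 l p x = l * Φ * ν p x / p)
    (hmax : ∀ (ν' : ℕ → ℤ → ℝ) (T' : Finset (ℕ × ℕ)), Wts W ν' → T' ⊆ T0 W →
      (∀ t ∈ T', ν' t.1 (t.2 : ℤ) = 0) → wt T' ≤ X1 →
      Sst g W τ l ν' * Real.exp (ξ * wt T') ≤ Sst g W τ l ν * Real.exp (ξ * XX W ν))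
    (p : ℕ) (hp : p ∈ W) (x : ℤ) : ν p x = 0 ∨ ξ / 2 ≤ ν p x := by
  classical
  by_contra hcon
  rw [not_or, not_le] at hcon
  obtain ⟨hx0, hx1⟩ := hcon
  have hpp := hW p hp
  have hp0 : (0 : ℝ) < p := by exact_mod_cast hpp.pos
  have hp1 : (1 : ℝ) ≤ p := by exact_mod_cast hpp.one_lt.le
  have hpZ : (0 : ℤ) < p := by exact_mod_cast hpp.pos
  have hxpos : 0 < ν p x := lt_of_le_of_ne (hν.nn p x) (Ne.symm hx0)
  set u : ℝ := ν p x / p with hu
  have hu0 : 0 < u := div_pos hxpos hp0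
  have hu1 : u ≤ 1 / 2 := by
    rw [hu, div_le_iff₀ hp0]
    linarith only [hx1, hξ1, hp1]
  have h1u : 0 < 1 - u := by linarith only [hu1]
  -- the representative
  set x0 : ℕ := (x % (p : ℤ)).toNat with hx0def
  have hx0c : (x0 : ℤ) = x % p := Int.toNat_of_nonneg (Int.emod_nonneg _ hpZ.ne')
  have hx0l : x0 < p := by
    have := Int.emod_lt_of_pos x hpZ
    omega
  have hνx0 : ν p (x0 : ℤ) = ν p x := by
    rw [hx0c]
    exact extb_per_emod (hν.per p hp) x
  -- the new weights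
  set ν' : ℕ → ℤ → ℝ := fun q n => if q = p then
    (if n % (p : ℤ) = (x0 : ℤ) then 0 else ν p n / (1 - u)) else ν q n with hν'
  have hw : Wts W ν' := by
    refine ⟨?_, ?_, ?_⟩
    · intro q n
      simp only [hν']
      split_ifs
      · exact le_rfl
      · exact div_nonneg (hν.nn p n) h1u.le
      · exact hν.nn q n
    · intro q hq n
      simp only [hν']
      by_cases h : q = p
      · subst h
        simp only [if_true]
        rw [Int.add_emod_right, hν.per q hp n]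
      · simp only [h, if_false]
        exact hν.per q hq n
    · intro q hq
      simp only [hν']
      by_cases h : q = p
      · subst h
        simp only [if_true]
        have h1 : ∀ y ∈ range q, (if ((y : ℤ)) % (q : ℤ) = (x0 : ℤ) then (0 : ℝ)
            else ν q y / (1 - u)) = ν q y / (1 - u) - (if y = x0 then ν q x / (1 - u) else 0) := by
          intro y hy
          rw [mem_range] at hy
          have h2 : ((y : ℤ)) % (q : ℤ) = y := by
            rw [← Int.natCast_mod, Nat.mod_eq_of_lt hy]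
          rw [h2]
          by_cases h3 : y = x0
          · rw [if_pos (by exact_mod_cast h3), if_pos h3, h3, hνx0, sub_self]
          · rw [if_neg (by exact_mod_cast h3), if_neg h3, sub_zero]
        rw [Finset.sum_congr rfl h1, Finset.sum_sub_distrib, ← Finset.sum_div, hν.mean q hp,
          Finset.sum_ite_eq' (range q) x0, if_pos (mem_range.2 hx0l)]
        have h4 : ν q x = q * u := by
          rw [hu]
          field_simp
        rw [h4]
        field_simp
      · simp only [h, if_false]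
        exact hν.mean q hq
  -- the new pattern
  have hnot : (p, x0) ∉ TP W ν := by
    intro h
    have h1 := (Finset.mem_filter.1 h).2
    simp only at h1
    rw [hνx0] at h1
    exact hx0 h1
  have hT' : insert (p, x0) (TP W ν) ⊆ T0 W := by
    intro t ht
    rcases Finset.mem_insert.1 ht with h | h
    · rw [h]
      exact mem_T0.2 ⟨hp, hx0l⟩
    · exact TP_sub W ν h
  have hz : ∀ t ∈ insert (p, x0) (TP W ν), ν' t.1 (t.2 : ℤ) = 0 := by
    intro t ht
    rcases Finset.mem_insert.1 ht with h | h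
    · rw [h]
      simp only [hν', if_true]
      rw [if_pos]
      rw [← Int.natCast_mod, Nat.mod_eq_of_lt hx0l]
    · have h1 := (Finset.mem_filter.1 h).2
      simp only [hν']
      split_ifs with h2 h3
      · rfl
      · rw [← h2, h1, zero_div]
      · exact h1
  have hwt : wt (insert (p, x0) (TP W ν)) = XX W ν + 1 / p := by
    unfold wt
    rw [Finset.sum_insert hnot, XX_eq_TP]
    ring
  have h1p : (1 : ℝ) / p ≤ 1 := by
    rw [div_le_one hp0]
    exact hp1
  have h1p0 : 0 < (1 : ℝ) / p := by positivity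
  have h1 := hmax ν' _ hw hT' hz (by rw [hwt]; linarith only [hX, h1p])
  rw [hwt, hSst, mul_add, Real.exp_add] at h1
  -- value of the new state
  have hval : Sst g W τ l ν' = (1 - u) ^ (-τ) * (l * Φ * (1 - u)) := by
    have h2 : ∀ n ∈ Icc (1 : ℤ) l, g n * ∏ q ∈ W, (ν' q n) ^ τ =
        (1 - u) ^ (-τ) * (if n % (p : ℤ) = (x0 : ℤ) then 0 else G n) := by
      intro n hn
      have e1 : ∏ q ∈ W, (ν' q n) ^ τ = (ν' p n) ^ τ * ∏ q ∈ W.erase p, (ν q n) ^ τ := by
        rw [← Finset.mul_prod_erase W _ hp]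
        congr 1
        refine Finset.prod_congr rfl fun q hq => ?_
        have : q ≠ p := (Finset.mem_erase.1 hq).1
        simp only [hν', this, if_false]
      have e2 : ∏ q ∈ W, (ν q n) ^ τ = (ν p n) ^ τ * ∏ q ∈ W.erase p, (ν q n) ^ τ :=
        (Finset.mul_prod_erase W _ hp).symm
      rw [e1]
      by_cases h3 : n % (p : ℤ) = (x0 : ℤ)
      · rw [if_pos h3]
        simp only [hν', if_true, h3]
        rw [Real.zero_rpow hτ0.ne']
        ring
      · rw [if_neg h3, hG n hn, e2]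
        simp only [hν', if_true, h3, if_false]
        rw [Real.div_rpow (hν.nn p n) h1u.le, Real.rpow_neg h1u.le]
        ring
    unfold Sst
    rw [Finset.sum_congr rfl h2, ← Finset.mul_sum]
    congr 1
    have h3 : ∑ n ∈ Icc (1 : ℤ) l, (if n % (p : ℤ) = (x0 : ℤ) then 0 else G n) =
        ∑ n ∈ Icc (1 : ℤ) l, G n - mass G 0 l p x := by
      rw [mass_eq_filter, eq_sub_iff_add_eq, Finset.sum_filter, ← Finset.sum_add_distrib]
      refine Finset.sum_congr rfl fun n _ => ?_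
      by_cases h4 : n % (p : ℤ) = (x0 : ℤ)
      · rw [if_pos h4, if_pos, zero_add]
        show n % (p : ℤ) = x % p
        rw [h4, hx0c]
      · rw [if_neg h4, if_neg, add_zero]
        intro h5
        exact h4 (by rw [hx0c]; exact h5)
    have h4 : ∑ n ∈ Icc (1 : ℤ) l, G n = l * Φ := by
      rw [← hSst]
      unfold Sst
      exact Finset.sum_congr rfl hG
    rw [h3, h4, hmarg p hp x, hu]
    field_simp
  rw [hval] at h1
  have h2 : 1 ≤ (1 - u) ^ (-τ) := by
    rw [Real.rpow_neg h1u.le]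
    apply (one_le_inv₀ (Real.rpow_pos_of_pos h1u _)).2
    exact Real.rpow_le_one h1u.le (by linarith only [hu0]) hτ0.le
  have h3 : 0 < Real.exp (ξ * XX W ν) := Real.exp_pos _
  have h4 : (1 - u) * Real.exp (ξ * (1 / p)) ≤ 1 := by
    have h5 : l * Φ * Real.exp (ξ * XX W ν) * ((1 - u) * Real.exp (ξ * (1 / p))) ≤
        l * Φ * Real.exp (ξ * XX W ν) * 1 := by
      have h6 : 0 ≤ l * Φ * (1 - u) * (Real.exp (ξ * XX W ν) * Real.exp (ξ * (1 / p))) := by
        positivity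
      have h7 : 1 * (l * Φ * (1 - u) * (Real.exp (ξ * XX W ν) * Real.exp (ξ * (1 / p)))) ≤
          (1 - u) ^ (-τ) * (l * Φ * (1 - u) * (Real.exp (ξ * XX W ν) *
            Real.exp (ξ * (1 / p)))) := mul_le_mul_of_nonneg_right h2 h6
      linarith only [h7, h1]
    exact le_of_mul_le_mul_left h5 (mul_pos hS h3)
  have h5 : 1 + ξ * (1 / p) ≤ Real.exp (ξ * (1 / p)) := by
    have := Real.add_one_le_exp (ξ * (1 / p))
    linarith only [this]
  have h6 : (1 - u) * (1 + ξ * (1 / p)) ≤ 1 :=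
    (mul_le_mul_of_nonneg_left h5 h1u.le).trans h4
  -- conclude
  have h7 : ξ * (1 / p) ≤ 2 * u := by
    have h8 : 0 ≤ ξ * (1 / p) := mul_nonneg hξ0 h1p0.le
    have h9 : ξ * (1 / (p : ℝ)) ≤ 1 := by
      calc ξ * (1 / (p : ℝ)) ≤ 1 * 1 := mul_le_mul hξ1 h1p h1p0.le zero_le_one
        _ = 1 := one_mul 1
    nlinarith only [h6, h8, h9, hu0]
  have h8 : ξ ≤ 2 * ν p x := by
    have h9 : ξ * (1 / p) * p ≤ 2 * u * p := mul_le_mul_of_nonneg_right h7 hp0.le
    have e1 : ξ * (1 / (p : ℝ)) * p = ξ := by field_simp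
    have e2 : 2 * u * p = 2 * ν p x := by
      rw [hu]
      field_simp
    rw [e1, e2] at h9
    exact h9
  linarith only [h8, hx1]

/-- upper bound of the value of a state -/
lemma phi_bound {W : Finset ℕ} (hW : ∀ p ∈ W, p.Prime) {J l Y : ℕ} {blk : ℕ → ℕ} (hJ : 1 ≤ J)
    (hblk : ∀ p ∈ W, blk p < J)
    (hM : ∀ i < J, ∏ p ∈ W.filter (fun p => blk p = i), p ≤ l) (hY : ∀ p ∈ W, p ≤ Y)
    (T : Finset (ℕ × ℕ)) (hT : T ⊆ T0 W) (X1 : ℝ) (hX1 : wt T ≤ X1) (hl1 : 1 ≤ l)
    (hl : (16 * X1 + 8) * Real.log (Y + 1) + X1 ≤ Real.log l) {ν : ℕ → ℤ → ℝ} (hν : Wts W ν)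
    (hz : ∀ t ∈ T, ν t.1 (t.2 : ℤ) = 0) {g : ℤ → ℝ} (hg0 : ∀ n, 0 ≤ g n) (hg1 : ∀ n, g n ≤ 1) :
    Sst g W (1 / (2 * J : ℝ)) l ν ≤ 3 * Real.exp (-(wt T / 2)) * l := by
  classical
  have hl0 : (0 : ℝ) < l := by exact_mod_cast hl1
  have hJ0 : (0 : ℝ) < J := by exact_mod_cast hJ
  have hτ0 : (0 : ℝ) < 1 / (2 * J : ℝ) := by positivity
  set τ : ℝ := 1 / (2 * J : ℝ) with hτ
  set a : ℤ → ℝ := fun n => if (∀ p ∈ W, ind T p n = 0) then (1 : ℝ) else 0 with ha
  set b : ℤ → ℝ := fun n => ∏ p ∈ W, (ν p n) ^ τ with hb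
  have hb0 : ∀ n, 0 ≤ b n := fun n => prod_nonneg' hν.nn τ n
  have h1 : Sst g W τ l ν ≤ ∑ n ∈ Icc (1 : ℤ) l, a n * b n := by
    unfold Sst
    refine Finset.sum_le_sum fun n _ => ?_
    show g n * b n ≤ a n * b n
    simp only [ha]
    split_ifs with h2
    · exact mul_le_mul_of_nonneg_right (hg1 n) (hb0 n)
    · rw [zero_mul]
      push Not at h2
      obtain ⟨p, hp, h3⟩ := h2
      have hpZ : (0 : ℤ) < p := by exact_mod_cast (hW p hp).pos
      have h4 : (p, (n % (p : ℤ)).toNat) ∈ T := by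
        unfold ind at h3
        by_contra h5
        rw [if_neg h5] at h3
        exact h3 rfl
      have h5 := hz _ h4
      simp only at h5
      rw [Int.toNat_of_nonneg (Int.emod_nonneg n hpZ.ne'), extb_per_emod (hν.per p hp)] at h5
      have h6 : b n = 0 := by
        simp only [hb]
        exact Finset.prod_eq_zero hp (by rw [h5, Real.zero_rpow hτ0.ne'])
      rw [h6, mul_zero]
  have h2 : (∑ n ∈ Icc (1 : ℤ) l, a n * b n) ^ 2 ≤
      (∑ n ∈ Icc (1 : ℤ) l, a n ^ 2) * ∑ n ∈ Icc (1 : ℤ) l, b n ^ 2 :=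
    Finset.sum_mul_sq_le_sq_mul_sq _ _ _
  have h3 : ∑ n ∈ Icc (1 : ℤ) l, a n ^ 2 ≤ 3 * l * Real.exp (-(wt T)) := by
    refine le_trans (le_of_eq ?_) (bonf hW Y l hY T hT X1 hX1 hl1 hl)
    refine Finset.sum_congr rfl fun n _ => ?_
    simp only [ha]
    split_ifs
    · norm_num
    · norm_num
  have h4 : ∑ n ∈ Icc (1 : ℤ) l, b n ^ 2 ≤ 2 * l := by
    refine le_trans (le_of_eq ?_) (hoelder_blocks l J W blk ν hν hW hJ hblk hM)
    refine Finset.sum_congr rfl fun n _ => ?_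
    simp only [hb]
    rw [← Finset.prod_pow]
    refine Finset.prod_congr rfl fun p _ => ?_
    rw [← Real.rpow_natCast, ← Real.rpow_mul (hν.nn p n), hτ]
    congr 1
    push_cast
    field_simp
  have h5 : (∑ n ∈ Icc (1 : ℤ) l, a n * b n) ^ 2 ≤ (3 * Real.exp (-(wt T / 2)) * l) ^ 2 := by
    have e1 : Real.exp (-(wt T)) = Real.exp (-(wt T / 2)) ^ 2 := by
      rw [← Real.exp_nat_mul]
      congr 1
      push_cast
      ring
    calc _ ≤ (3 * l * Real.exp (-(wt T))) * (2 * l) := h2.trans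
          (mul_le_mul h3 h4 (Finset.sum_nonneg fun n _ => sq_nonneg _) (by positivity))
      _ ≤ _ := by
          rw [e1]
          have : 0 ≤ (Real.exp (-(wt T / 2)) * l) ^ 2 := sq_nonneg _
          nlinarith only [this]
  have h6 : ∑ n ∈ Icc (1 : ℤ) l, a n * b n ≤ 3 * Real.exp (-(wt T / 2)) * l :=
    le_of_sq_le_sq h5 (by positivity)
  exact h1.trans h6

end Vale.Agent.P042.SS2
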