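import Vale.Agent.P042.SS2.ExtZ

set_option autoImplicit false

/-!
State block of Theorem S2, part b: stationarity (`marg`) and the lower bound of the weights.
-/

namespace Vale.Agent.P042.SS2

open Polynomial Finset Vale.Agent.P042.SS

/-- maximality over the weights with at least the same zeros -/
structure WMax2 (N' : ℕ) (W : Finset ℕ) (τ : ℝ) (g : ℤ → ℝ) (ν : ℕ → ℤ → ℝ) : Prop where
  prime : ∀ p ∈ W, p.Prime
  wts : Wts W ν
  g0 : ∀ n, 0 ≤ g n
  pos : 0 < ∑ n ∈ Icc (1 : ℤ) N', g n * ∏ p ∈ W, (ν p n) ^ τ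
  max : ∀ ν', Wts W ν' → (∀ p ∈ W, ∀ n, ν p n = 0 → ν' p n = 0) →
    ∑ n ∈ Icc (1 : ℤ) N', g n * ∏ p ∈ W, (ν' p n) ^ τ ≤
    ∑ n ∈ Icc (1 : ℤ) N', g n * ∏ p ∈ W, (ν p n) ^ τ

variable {N' : ℕ} {W : Finset ℕ} {τ : ℝ} {g : ℤ → ℝ} {ν : ℕ → ℤ → ℝ}

/-- replacing `ν p` by `ν p * F p` for `p ∈ U` -/
theorem WMax2.mulF (hM : WMax2 N' W τ g ν) {G : ℤ → ℝ}
    (hG : ∀ n ∈ Icc (1 : ℤ) N', G n = g n * ∏ p ∈ W, (ν p n) ^ τ) {Φ : ℝ}
    (hΦ : ∑ n ∈ Icc (1 : ℤ) N', G n = N' * Φ) (U : Finset ℕ) (F : ℕ → ℤ → ℝ) (hU : U ⊆ W)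
    (hF0 : ∀ p n, 0 ≤ F p n) (hFper : ∀ p ∈ U, ∀ n, F p (n + p) = F p n)
    (hFm : ∀ p ∈ U, ∑ x ∈ range p, ν p x * F p x = p) :
    ∑ n ∈ Icc (1 : ℤ) N', G n * ∏ p ∈ U, (F p n) ^ τ ≤ N' * Φ := by
  classical
  set ν' : ℕ → ℤ → ℝ := fun p n => if p ∈ U then ν p n * F p n else ν p n with hν'
  have hw : Wts W ν' := by
    refine ⟨?_, ?_, ?_⟩
    · intro p n
      simp only [hν']
      split_ifs
      · exact mul_nonneg (hM.wts.nn p n) (hF0 p n)
      · exact hM.wts.nn p n
    · intro p hp n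
      simp only [hν']
      split_ifs with h1
      · rw [hM.wts.per p hp n, hFper p h1 n]
      · exact hM.wts.per p hp n
    · intro p hp
      simp only [hν']
      split_ifs with h1
      · exact hFm p h1
      · exact hM.wts.mean p hp
  have hz : ∀ p ∈ W, ∀ n, ν p n = 0 → ν' p n = 0 := by
    intro p _ n h0
    simp only [hν']
    split_ifs
    · rw [h0, zero_mul]
    · exact h0
  have h1 := hM.max ν' hw hz
  have h2 : ∑ n ∈ Icc (1 : ℤ) N', g n * ∏ p ∈ W, (ν p n) ^ τ = N' * Φ := by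
    rw [← hΦ]
    exact Finset.sum_congr rfl fun n hn => (hG n hn).symm
  rw [h2] at h1
  refine le_trans (le_of_eq ?_) h1
  refine Finset.sum_congr rfl fun n hn => ?_
  rw [hG n hn, mul_assoc]
  congr 1
  have h3 : ∏ p ∈ U, (F p n) ^ τ = ∏ p ∈ W, (if p ∈ U then (F p n) ^ τ else 1) := by
    rw [← Finset.prod_filter]
    congr 1
    ext p
    simp only [mem_filter]
    exact ⟨fun h => ⟨hU h, h⟩, fun h => h.2⟩
  rw [h3, ← Finset.prod_mul_distrib]
  refine Finset.prod_congr rfl fun p _ => ?_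
  simp only [hν']
  split_ifs
  · rw [Real.mul_rpow (hM.wts.nn p n) (hF0 p n)]
  · rw [mul_one]

theorem WMax2.G0 (hM : WMax2 N' W τ g ν) {G : ℤ → ℝ}
    (hG : ∀ n ∈ Icc (1 : ℤ) N', G n = g n * ∏ p ∈ W, (ν p n) ^ τ) :
    ∀ n ∈ Icc (1 : ℤ) N', 0 ≤ G n := by
  intro n hn
  rw [hG n hn]
  exact mul_nonneg (hM.g0 n) (Finset.prod_nonneg fun p _ => Real.rpow_nonneg (hM.wts.nn p n) _)

/-- stationarity: the law of `n mod p` under `G` is `ν p / p` -/
theorem WMax2.marg (hM : WMax2 N' W τ g ν) (hτ0 : 0 < τ) {G : ℤ → ℝ}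
    (hG : ∀ n ∈ Icc (1 : ℤ) N', G n = g n * ∏ p ∈ W, (ν p n) ^ τ) {Φ : ℝ}
    (hΦ : ∑ n ∈ Icc (1 : ℤ) N', G n = N' * Φ) :
    ∀ p ∈ W, ∀ x : ℤ, mass G 0 N' p x = N' * Φ * ν p x / p := by
  classical
  intro p hp
  have hpp : p.Prime := hM.prime p hp
  have hp1 : 1 ≤ p := hpp.one_lt.le
  have hp0 : (0 : ℝ) < p := by exact_mod_cast hpp.pos
  have hS : (0 : ℝ) < N' * Φ := by
    rw [← hΦ, Finset.sum_congr rfl hG]
    exact hM.pos
  set S : ℝ := N' * Φ with hSdef
  have hm0 : ∀ x : ℤ, 0 ≤ mass G 0 N' p x := by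
    intro x
    rw [mass_eq_filter]
    exact Finset.sum_nonneg fun n hn => hM.G0 hG n (mem_filter.1 hn).1
  -- `mass = 0` where `ν = 0`
  have hmz : ∀ x : ℤ, ν p x = 0 → mass G 0 N' p x = 0 := by
    intro x hx
    rw [mass_eq_filter]
    refine Finset.sum_eq_zero fun n hn => ?_
    rw [mem_filter] at hn
    rw [hG n hn.1]
    have h1 : ν p n = 0 := by
      rw [← extb_per_emod (hM.wts.per p hp) n, show n % (p : ℤ) = x % p from hn.2,
        extb_per_emod (hM.wts.per p hp) x, hx]
    rw [Finset.prod_eq_zero hp (by rw [h1, Real.zero_rpow hτ0.ne']), mul_zero]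
  have hmsum : ∑ x ∈ range p, mass G 0 N' p x = S := by
    have h1 := sum_per G N' p hp1 (fun _ => 1) (fun _ => rfl)
    simp only [mul_one] at h1
    rw [← h1, hΦ]
  -- the test function
  set F : ℕ → ℤ → ℝ := fun _ x => p * mass G 0 N' p x / (S * ν p x) with hF
  have hmper : ∀ n : ℤ, mass G 0 N' p (n + p) = mass G 0 N' p n := by
    intro n
    rw [← mass_emod G 0 N' p (n + p), ← mass_emod G 0 N' p n, Int.add_emod_right]
  have hF0 : ∀ q n, 0 ≤ F q n := by
    intro q n
    simp only [hF]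
    have h1 := hm0 n
    have h2 := hM.wts.nn p n
    positivity
  have hFper : ∀ q ∈ ({p} : Finset ℕ), ∀ n, F q (n + q) = F q n := by
    intro q hq n
    rw [mem_singleton] at hq
    subst hq
    simp only [hF]
    rw [hmper, hM.wts.per q hp]
  have hFm : ∀ q ∈ ({p} : Finset ℕ), ∑ x ∈ range q, ν q x * F q x = q := by
    intro q hq
    rw [mem_singleton] at hq
    subst hq
    have h1 : ∀ x ∈ range q, ν q (x : ℤ) * F q x = q / S * mass G 0 N' q x := by
      intro x _
      simp only [hF]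
      by_cases hz : ν q (x : ℤ) = 0
      · rw [hmz x hz, hz]
        simp
      · field_simp
    rw [Finset.sum_congr rfl h1, ← Finset.mul_sum, hmsum]
    field_simp
  have key := hM.mulF hG hΦ {p} F (by simpa using hp) hF0 hFper hFm
  simp only [Finset.prod_singleton] at key
  rw [sum_per G N' p hp1 (fun n => (F p n) ^ τ) (fun n => by
    rw [hFper p (mem_singleton_self p) n])] at key
  -- pointwise inequality
  set f : ℕ → ℝ := fun x => mass G 0 N' p x * (F p x) ^ τ -
    (mass G 0 N' p x - τ * (S * ν p x / p - mass G 0 N' p x)) with hf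
  have hpt : ∀ x : ℕ, 0 ≤ f x ∧ (f x = 0 → mass G 0 N' p x = S * ν p x / p) := by
    intro x
    have hν0 := hM.wts.nn p (x : ℤ)
    rcases (hm0 x).eq_or_lt with h0 | h0
    · have h1 : f x = τ * (S * ν p x / p) := by
        simp only [hf]
        rw [← h0]
        ring
      constructor
      · rw [h1]
        positivity
      · intro h2
        rw [h1] at h2
        rw [← h0]
        rcases mul_eq_zero.1 h2 with h3 | h3
        · exact absurd h3 hτ0.ne'
        · exact h3.symm
    · have hνp : 0 < ν p (x : ℤ) := by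
        rcases hν0.eq_or_lt with h1 | h1
        · exact absurd (hmz x h1.symm) h0.ne'
        · exact h1
      have ht : 0 < S * ν p x / (p * mass G 0 N' p x) := by positivity
      set t : ℝ := S * ν p x / (p * mass G 0 N' p x) with htdef
      have hFt : F p x = t⁻¹ := by
        simp only [hF, htdef]
        rw [inv_div]
      have h1 : (F p x) ^ τ = Real.exp (-(τ * Real.log t)) := by
        rw [hFt, Real.rpow_def_of_pos (by positivity), Real.log_inv]
        congr 1
        ring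
      have h2 : f x = mass G 0 N' p x * (Real.exp (-(τ * Real.log t)) - 1 + τ * (t - 1)) := by
        simp only [hf]
        rw [h1]
        have h3 : S * ν p x / p = mass G 0 N' p x * t := by
          rw [htdef]
          field_simp
        rw [h3]
        ring
      have h3 : Real.log t ≤ t - 1 := Real.log_le_sub_one_of_pos ht
      have h4 : -(τ * Real.log t) + 1 ≤ Real.exp (-(τ * Real.log t)) := Real.add_one_le_exp _
      constructor
      · rw [h2]
        apply mul_nonneg h0.le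
        nlinarith only [h3, h4, hτ0]
      · intro h5
        have h6 : t = 1 := by
          by_contra hne
          have h7 : Real.log t < t - 1 := Real.log_lt_sub_one_of_pos ht hne
          have h8 : 0 < Real.exp (-(τ * Real.log t)) - 1 + τ * (t - 1) := by
            nlinarith only [h7, h4, hτ0]
          rw [h2] at h5
          have := mul_pos h0 h8
          linarith only [this, h5]
        rw [htdef, div_eq_one_iff_eq (by positivity)] at h6
        rw [h6]
        field_simp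
  have hsumf : ∑ x ∈ range p, f x ≤ 0 := by
    simp only [hf]
    rw [Finset.sum_sub_distrib, Finset.sum_sub_distrib, ← Finset.mul_sum, Finset.sum_sub_distrib,
      ← Finset.sum_div, ← Finset.mul_sum, hM.wts.mean p hp, hmsum]
    have h1 : S * (p : ℝ) / p = S := by field_simp
    rw [h1]
    linarith only [key]
  have hall : ∀ x ∈ range p, f x = 0 := by
    have h1 : ∑ x ∈ range p, f x = 0 :=
      le_antisymm hsumf (Finset.sum_nonneg fun x _ => (hpt x).1)
    exact (Finset.sum_eq_zero_iff_of_nonneg fun x _ => (hpt x).1).1 h1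
  intro x
  have hp0' : (0 : ℤ) < p := by exact_mod_cast hpp.pos
  have h1 := Int.emod_lt_of_pos x hp0'
  have h2 := Int.emod_nonneg x hp0'.ne'
  have h3 : (((x % (p : ℤ)).toNat : ℕ) : ℤ) = x % p := Int.toNat_of_nonneg h2
  have h4 := (hpt (x % (p : ℤ)).toNat).2 (hall _ (by rw [mem_range]; omega))
  rw [h3, mass_emod, extb_per_emod (hM.wts.per p hp)] at h4
  exact h4


end Vale.Agent.P042.SS2
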