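import Vale.Agent.P042.SS2.ExtDefs
import Vale.Agent.P042.SS.ExtA

set_option autoImplicit false

/-!
State block of Theorem S2, part 0: zero patterns and existence of a maximal state.
-/

namespace Vale.Agent.P042.SS2

open Polynomial Finset Vale.Agent.P042.SS

lemma zf_nonneg (ν : ℕ → ℤ → ℝ) (p : ℕ) : 0 ≤ zf ν p := by
  unfold zf; positivity

lemma XX_nonneg (W : Finset ℕ) (ν : ℕ → ℤ → ℝ) : 0 ≤ XX W ν :=
  Finset.sum_nonneg fun p _ => zf_nonneg ν p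

open Classical in
lemma zf_eq_sum (ν : ℕ → ℤ → ℝ) (p : ℕ) :
    zf ν p = (∑ x ∈ range p, (if ν p (x : ℤ) = 0 then (1 : ℝ) else 0)) / p := by
  unfold zf
  rw [Finset.sum_ite, Finset.sum_const_zero, add_zero, Finset.sum_const, nsmul_eq_mul, mul_one]

lemma zf_congr {ν ν' : ℕ → ℤ → ℝ} {p : ℕ} (h : ∀ n, ν p n = ν' p n) : zf ν p = zf ν' p := by
  classical
  unfold zf
  simp only [h]

lemma zf_mono {ν ν' : ℕ → ℤ → ℝ} {p : ℕ} (h : ∀ n, ν p n = 0 → ν' p n = 0) :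
    zf ν p ≤ zf ν' p := by
  classical
  unfold zf
  apply div_le_div_of_nonneg_right _ (Nat.cast_nonneg p)
  have : ((range p).filter (fun x : ℕ => ν p x = 0)).card ≤
      ((range p).filter (fun x : ℕ => ν' p x = 0)).card := by
    apply Finset.card_le_card
    intro x hx
    rw [Finset.mem_filter] at hx ⊢
    exact ⟨hx.1, h x hx.2⟩
  exact_mod_cast this

/-- all positions -/
noncomputable def T0 (W : Finset ℕ) : Finset (ℕ × ℕ) :=
  W.biUnion fun p => (range p).image fun x => (p, x)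

lemma mem_T0 {W : Finset ℕ} {i : ℕ × ℕ} : i ∈ T0 W ↔ i.1 ∈ W ∧ i.2 < i.1 := by
  unfold T0
  rw [Finset.mem_biUnion]
  constructor
  · rintro ⟨p, hp, hi⟩
    rw [Finset.mem_image] at hi
    obtain ⟨x, hx, rfl⟩ := hi
    exact ⟨hp, mem_range.1 hx⟩
  · rintro ⟨h1, h2⟩
    exact ⟨i.1, h1, Finset.mem_image.2 ⟨i.2, mem_range.2 h2, rfl⟩⟩

open Classical in
/-- zero pattern of a weight -/
noncomputable def TP (W : Finset ℕ) (ν : ℕ → ℤ → ℝ) : Finset (ℕ × ℕ) :=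
  (T0 W).filter fun i => ν i.1 (i.2 : ℤ) = 0

lemma XX_eq_TP (W : Finset ℕ) (ν : ℕ → ℤ → ℝ) :
    XX W ν = ∑ i ∈ TP W ν, (1 : ℝ) / i.1 := by
  classical
  unfold XX TP T0
  rw [Finset.filter_biUnion, Finset.sum_biUnion]
  · refine Finset.sum_congr rfl fun p _ => ?_
    rw [Finset.filter_image, Finset.sum_image (by
      intro a _ b _ hab
      exact (Prod.mk.inj hab).2)]
    unfold zf
    simp only [Finset.sum_const, nsmul_eq_mul]
    rw [mul_one_div]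
  · intro p _ q _ hpq
    rw [Function.onFun, Finset.disjoint_left]
    intro i hi hj
    rw [Finset.mem_filter, Finset.mem_image] at hi hj
    obtain ⟨⟨x, _, rfl⟩, -⟩ := hi
    obtain ⟨⟨y, _, hy⟩, -⟩ := hj
    exact hpq (Prod.mk.inj hy).1.symm

/-- the compact set of weights vanishing on a pattern -/
def KT (W : Finset ℕ) (T : Finset (ℕ × ℕ)) : Set (ℕ → ℤ → ℝ) :=
  {ν | ν ∈ KW W ∧ ∀ i ∈ T, ν i.1 (i.2 : ℤ) = 0}

lemma KT_compact (W : Finset ℕ) (hW : ∀ p ∈ W, p.Prime) (T : Finset (ℕ × ℕ)) :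
    IsCompact (KT W T) := by
  have h1 := KW_compact W hW
  have e : KT W T = KW W ∩ ⋂ i ∈ T, {ν : ℕ → ℤ → ℝ | ν i.1 (i.2 : ℤ) = 0} := by
    ext ν
    simp only [KT, Set.mem_ofPred_eq, Set.mem_inter_iff, Set.mem_iInter]
  rw [e]
  refine h1.inter_right ?_
  refine isClosed_biInter fun i _ => ?_
  exact isClosed_eq ((continuous_apply (i.2 : ℤ)).comp (continuous_apply i.1)) continuous_const

lemma Sst_nonneg {g : ℤ → ℝ} (hg : ∀ n, 0 ≤ g n) {W : Finset ℕ} (τ : ℝ) (l : ℕ)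
    {ν : ℕ → ℤ → ℝ} (hν : ∀ p n, 0 ≤ ν p n) : 0 ≤ Sst g W τ l ν := by
  unfold Sst
  exact Finset.sum_nonneg fun j _ => mul_nonneg (hg j) (prod_nonneg' hν τ j)

/-- weight of a pattern -/
noncomputable def wt (T : Finset (ℕ × ℕ)) : ℝ := ∑ i ∈ T, (1 : ℝ) / i.1

lemma wt_nonneg (T : Finset (ℕ × ℕ)) : 0 ≤ wt T := Finset.sum_nonneg fun i _ => by positivity

/-- existence of a maximal state under the constraint `wt T ≤ X1` -/
theorem exists_max_state3 {ι : Type*} (S : Finset ι) (hS : S.Nonempty) (g : ι → ℤ → ℝ)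
    (l : ι → ℕ) (c : ι → ℝ) (W : Finset ℕ) (hW : ∀ p ∈ W, p.Prime) (τ ξ X1 : ℝ) (hτ : 0 ≤ τ)
    (hX1 : 0 ≤ X1) (hc : ∀ i, 0 ≤ c i) :
    ∃ i ∈ S, ∃ T : Finset (ℕ × ℕ), T ⊆ T0 W ∧ wt T ≤ X1 ∧ ∃ ν ∈ KW W,
      (∀ t ∈ T, ν t.1 (t.2 : ℤ) = 0) ∧ ∀ j ∈ S, ∀ ν', Wts W ν' → ∀ T' : Finset (ℕ × ℕ),
      T' ⊆ T0 W → (∀ t ∈ T', ν' t.1 (t.2 : ℤ) = 0) → wt T' ≤ X1 →
      c j * Sst (g j) W τ (l j) ν' * Real.exp (ξ * wt T') ≤
        c i * Sst (g i) W τ (l i) ν * Real.exp (ξ * wt T) := by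
  classical
  -- maximisers for fixed patterns
  have h1 : ∀ (i : ι) (T : Finset (ℕ × ℕ)), (KT W T).Nonempty → ∃ ν ∈ KT W T, ∀ ν' ∈ KT W T,
      Sst (g i) W τ (l i) ν' ≤ Sst (g i) W τ (l i) ν := fun i T hT => by
    obtain ⟨ν, hν, hmax⟩ := (KT_compact W hW T).exists_isMaxOn hT
      (Sst_cont (g i) W τ hτ (l i)).continuousOn
    exact ⟨ν, hν, fun ν' hν' => hmax hν'⟩
  have h1' : ∀ (i : ι) (T : Finset (ℕ × ℕ)), ∃ ν : ℕ → ℤ → ℝ, (KT W T).Nonempty →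
      (ν ∈ KT W T ∧ ∀ ν' ∈ KT W T, Sst (g i) W τ (l i) ν' ≤ Sst (g i) W τ (l i) ν) := by
    intro i T
    by_cases hT : (KT W T).Nonempty
    · obtain ⟨ν, h2, h3⟩ := h1 i T hT
      exact ⟨ν, fun _ => ⟨h2, h3⟩⟩
    · exact ⟨fun _ _ => 0, fun h => absurd h hT⟩
  choose ν hν using h1'
  set TT : Finset (Finset (ℕ × ℕ)) := (T0 W).powerset.filter
    (fun T => (KT W T).Nonempty ∧ wt T ≤ X1) with hTT
  have hTTne : (∅ : Finset (ℕ × ℕ)) ∈ TT := by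
    rw [hTT, Finset.mem_filter]
    refine ⟨Finset.empty_mem_powerset _, ⟨_, KW_one W, fun i hi => ?_⟩, ?_⟩
    · simp at hi
    · unfold wt
      simpa using hX1
  have hne : (S ×ˢ TT).Nonempty := by
    obtain ⟨i, hi⟩ := hS
    exact ⟨(i, ∅), Finset.mem_product.2 ⟨hi, hTTne⟩⟩
  set V : ι × Finset (ℕ × ℕ) → ℝ := fun s => c s.1 * Sst (g s.1) W τ (l s.1) (ν s.1 s.2) *
    Real.exp (ξ * wt s.2) with hV
  obtain ⟨⟨i, T⟩, hiT, him⟩ := Finset.exists_max_image (S ×ˢ TT) V hne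
  rw [Finset.mem_product, hTT, Finset.mem_filter] at hiT
  obtain ⟨hi, hT1, hT2, hT3⟩ := hiT
  obtain ⟨hK1, hK2⟩ := hν i T hT2
  refine ⟨i, hi, T, Finset.mem_powerset.1 hT1, hT3, ν i T, hK1.1, hK1.2,
    fun j hj ν' hν' T' hT' hz hw => ?_⟩
  -- normalise off `W`
  set ν'' : ℕ → ℤ → ℝ := fun p n => if p ∈ W then ν' p n else 1 with hν''
  have hKW : ν'' ∈ KW W := by
    refine ⟨⟨?_, ?_, ?_⟩, ?_⟩
    · intro p n
      simp only [hν'']
      split_ifs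
      · exact hν'.nn p n
      · exact zero_le_one
    · intro p hp n
      simp only [hν'', hp, if_true]
      exact hν'.per p hp n
    · intro p hp
      simp only [hν'', hp, if_true]
      exact hν'.mean p hp
    · intro p hp n
      simp only [hν'', hp, if_false]
  have hS' : Sst (g j) W τ (l j) ν'' = Sst (g j) W τ (l j) ν' := by
    unfold Sst
    refine Finset.sum_congr rfl fun n _ => ?_
    congr 1
    refine Finset.prod_congr rfl fun p hp => ?_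
    simp only [hν'', hp, if_true]
  rw [← hS']
  -- pattern
  have hmemK : ν'' ∈ KT W T' := by
    refine ⟨hKW, fun t ht => ?_⟩
    have h5 := (mem_T0.1 (hT' ht)).1
    simp only [hν'', h5, if_true]
    exact hz t ht
  have hmemT : T' ∈ TT := by
    rw [hTT, Finset.mem_filter, Finset.mem_powerset]
    exact ⟨hT', ⟨_, hmemK⟩, hw⟩
  have h2 := (hν j T' ⟨_, hmemK⟩).2 ν'' hmemK
  have h3 := him (j, T') (Finset.mem_product.2 ⟨hj, hmemT⟩)
  simp only [hV] at h3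
  have h4 : c j * Sst (g j) W τ (l j) ν'' * Real.exp (ξ * wt T') ≤
      c j * Sst (g j) W τ (l j) (ν j T') * Real.exp (ξ * wt T') :=
    mul_le_mul_of_nonneg_right (mul_le_mul_of_nonneg_left h2 (hc j)) (Real.exp_pos _).le
  exact h4.trans h3

end Vale.Agent.P042.SS2
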