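import Vale.Agent.P042.SS2.LiB
import Vale.Agent.P042.SS.LI

set_option autoImplicit false

/-!
Block LI2: the level inequality for weights in integer windows, with coordinatewise noise rates
`ρ p` and coordinatewise growth `b p` (only condition: `12 m (ρ p) (1 + b p) ≤ 1`).
-/

namespace Vale.Agent.P042.SS

open Finset Vale.Agent.P042

/-- Level inequality with growth: as `LIStmt`, but the mass of a class modulo
`W ∏_{p ∈ S} p ^ g p` may be larger than expected by the factor `β ∏_{p ∈ S} b p`, and the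
rates depend on the prime. -/
def LI2Stmt : Prop :=
  ∀ (P : Finset ℕ) (g : ℕ → ℕ) (W D m N1 : ℕ) (β : ℝ) (ρ b : ℕ → ℝ) (G : ℤ → ℝ) (y : ℤ)
    (Fm : Finset (Finset ℕ)) (Qs : Finset ℕ),
    (∀ p ∈ P, p.Prime) → 1 ≤ W → 2 ≤ m → 0 < β →
    (∀ p ∈ P, 0 ≤ ρ p) → (∀ p ∈ P, 1 ≤ b p) → (∀ p ∈ P, 12 * m * ρ p * (1 + b p) ≤ 1) →
    (∀ n, 0 ≤ G n) → (∀ n, G n ≤ 1) →
    (∀ S ∈ Fm, S ⊆ P) → (∀ S ∈ Fm, ∀ T, T ⊆ S → T ∈ Fm) →
    (∀ S ∈ Fm, ∏ p ∈ S, p ^ g p ≤ D) →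
    W * D ^ (2 * m + 1) * Fm.card ^ (2 * m) ≤ N1 →
    (∀ S ∈ Fm, ∀ x : ℤ, mass G y N1 (W * ∏ p ∈ S, p ^ g p) x ≤
      β * (∏ p ∈ S, b p) * (N1 / ((W * ∏ p ∈ S, p ^ g p : ℕ) : ℝ))) →
    (∀ q ∈ Qs, 1 ≤ q ∧ goodg P g W q ∧ Ug W q ∈ Fm) →
    ∑ q ∈ Qs, (∏ p ∈ Ug W q, ρ p) * enG G y N1 q ≤
      (N1 : ℝ) ^ 2 * (2 * β ^ 2 * (1 + β ^ (-(1 / (m : ℝ)))))

namespace LIG

section General

variable {n : ℕ} [NeZero n] {ι : Type*} [Fintype ι] [DecidableEq ι]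
  (Hg : ι → AddSubgroup (ZMod n))

theorem bessel_gG (F : ZMod n → ℝ) (𝒟 : Finset (Finset ι)) (ρ : ι → ℝ) (β : ℝ)
    (Ξ : Finset (ZMod n)) (Uf : ZMod n → Finset ι)
    (hUf : ∀ ξ ∈ Ξ, ∀ p, p ∈ Uf ξ ↔ ¬ TG Hg ξ p) (hD : ∀ ξ ∈ Ξ, Uf ξ ∈ 𝒟)
    (hρ : ∀ i, 0 ≤ ρ i)
    (hlev : ∀ x, ∑ U ∈ 𝒟,
      (∏ i ∈ U, ρ i) * EE Hg Finset.univ (fun z => (gg Hg F ∅ U z) ^ 2) x ≤ β) :
    ∑ ξ ∈ Ξ, (∏ i ∈ Uf ξ, ρ i) * ‖ftz (fun z => (F z : ℂ)) ξ‖ ^ 2 ≤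
      (n : ℝ) ^ 2 * β := by
  classical
  have h1 : ∑ ξ ∈ Ξ, (∏ i ∈ Uf ξ, ρ i) * ‖ftz (fun z => (F z : ℂ)) ξ‖ ^ 2 =
      ∑ U ∈ 𝒟, ∑ ξ ∈ Ξ.filter (fun ξ => Uf ξ = U),
        (∏ i ∈ Uf ξ, ρ i) * ‖ftz (fun z => (F z : ℂ)) ξ‖ ^ 2 := by
    symm
    apply Finset.sum_fiberwise_of_maps_to
    intro ξ hξ
    exact hD ξ hξ
  rw [h1]
  have h2 : ∀ U ∈ 𝒟, ∑ ξ ∈ Ξ.filter (fun ξ => Uf ξ = U),
        (∏ i ∈ Uf ξ, ρ i) * ‖ftz (fun z => (F z : ℂ)) ξ‖ ^ 2 ≤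
        (∏ i ∈ U, ρ i) * ((n : ℝ) * ∑ z, (gg Hg F ∅ U z) ^ 2) := by
    intro U _
    have h3 : ∑ ξ ∈ Ξ.filter (fun ξ => Uf ξ = U),
        (∏ i ∈ Uf ξ, ρ i) * ‖ftz (fun z => (F z : ℂ)) ξ‖ ^ 2 =
        (∏ i ∈ U, ρ i) * ∑ ξ ∈ Ξ.filter (fun ξ => Uf ξ = U),
          ‖ftz (fun z => (gg Hg F ∅ U z : ℂ)) ξ‖ ^ 2 := by
      rw [Finset.mul_sum]
      refine Finset.sum_congr rfl fun ξ hξ => ?_
      rw [Finset.mem_filter] at hξ
      rw [ftz_gg_g Hg F U ξ (by rw [← hξ.2]; exact hUf ξ hξ.1), hξ.2]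
    rw [h3]
    apply mul_le_mul_of_nonneg_left _ (Finset.prod_nonneg fun i _ => hρ i)
    calc ∑ ξ ∈ Ξ.filter (fun ξ => Uf ξ = U), ‖ftz (fun z => (gg Hg F ∅ U z : ℂ)) ξ‖ ^ 2
        ≤ ∑ ξ, ‖ftz (fun z => (gg Hg F ∅ U z : ℂ)) ξ‖ ^ 2 :=
          Finset.sum_le_sum_of_subset_of_nonneg (Finset.subset_univ _)
            (fun _ _ _ => sq_nonneg _)
      _ = (n : ℝ) * ∑ z, (gg Hg F ∅ U z) ^ 2 := by
          rw [ftz_parseval]
          congr 1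
          refine Finset.sum_congr rfl fun z _ => ?_
          rw [Complex.norm_real, Real.norm_eq_abs, sq_abs]
  refine (Finset.sum_le_sum h2).trans ?_
  have h4 : ∑ U ∈ 𝒟, (∏ i ∈ U, ρ i) * ((n : ℝ) * ∑ z, (gg Hg F ∅ U z) ^ 2) =
      (n : ℝ) * ∑ x, ∑ U ∈ 𝒟,
        (∏ i ∈ U, ρ i) * EE Hg Finset.univ (fun z => (gg Hg F ∅ U z) ^ 2) x := by
    rw [Finset.sum_comm, Finset.mul_sum]
    refine Finset.sum_congr rfl fun U _ => ?_
    rw [← Finset.mul_sum]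
    have : ∑ x, EE Hg Finset.univ (fun z => (gg Hg F ∅ U z) ^ 2) x =
        ∑ z, (gg Hg F ∅ U z) ^ 2 := by
      unfold EE
      exact sum_avg _ _
    rw [this]
    ring
  rw [h4]
  have h5 : ∑ x, ∑ U ∈ 𝒟,
        (∏ i ∈ U, ρ i) * EE Hg Finset.univ (fun z => (gg Hg F ∅ U z) ^ 2) x ≤
      (n : ℝ) * β := by
    calc _ ≤ ∑ x : ZMod n, β := Finset.sum_le_sum fun x _ => hlev x
      _ = (n : ℝ) * β := by
        rw [Finset.sum_const, nsmul_eq_mul, Finset.card_univ, ZMod.card]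
  calc (n : ℝ) * _ ≤ (n : ℝ) * ((n : ℝ) * β) :=
        mul_le_mul_of_nonneg_left h5 (Nat.cast_nonneg _)
    _ = _ := by ring

end General

end LIG

open LI LIG in
theorem li2_holds : LI2Stmt := by
  intro P g W D m N1 β ρ b G y Fm Qs hP hW hm hβ hρ0 hb hρ hG0 hG1 hFmP hFmd hFmD hN1 hmass hQs
  classical
  rcases Fm.eq_empty_or_nonempty with hemp | ⟨S1, hS1⟩
  · have hQe : Qs = ∅ := by
      rw [Finset.eq_empty_iff_forall_notMem]
      intro q hq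
      have := (hQs q hq).2.2
      rw [hemp] at this
      exact Finset.notMem_empty _ this
    rw [hQe, Finset.sum_empty]
    have hrβ : 0 < β ^ (-(1 / (m : ℝ))) := Real.rpow_pos_of_pos hβ _
    positivity
  have hempty : ∅ ∈ Fm := hFmd S1 hS1 ∅ (Finset.empty_subset _)
  have hD1 : 1 ≤ D := by
    have := hFmD ∅ hempty
    simpa using this
  have hcard1 : 1 ≤ Fm.card := Finset.card_pos.2 ⟨_, hempty⟩
  have hPpos : 0 < bigG W P g := bigG_pos hP hW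
  have : NeZero (bigG W P g) := ⟨hPpos.ne'⟩
  have hN1pos : 0 < N1 := by
    have : 0 < W * D ^ (2 * m + 1) * Fm.card ^ (2 * m) := by positivity
    omega
  have hN1r : (0 : ℝ) < N1 := by exact_mod_cast hN1pos
  have hPr : (0 : ℝ) < bigG W P g := by exact_mod_cast hPpos
  set J := Finset.Ioc y (y + N1) with hJ
  have hmodpos : ∀ S : Finset P, 0 < W * ∏ p ∈ S, (p : ℕ) ^ g p := fun S =>
    Nat.mul_pos (by omega) (prodG_pos hP S)
  -- the family on the subtype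
  set Fs : Finset (Finset P) :=
    Finset.univ.filter (fun S => S.map (Function.Embedding.subtype _) ∈ Fm) with hFs
  have hFsmem : ∀ S : Finset P, S ∈ Fs ↔ S.map (Function.Embedding.subtype _) ∈ Fm := by
    intro S
    rw [hFs, Finset.mem_filter]
    exact ⟨fun h => h.2, fun h => ⟨Finset.mem_univ _, h⟩⟩
  have hFsd : ∀ S ∈ Fs, ∀ T, T ⊆ S → T ∈ Fs := by
    intro S hS T hT
    rw [hFsmem] at hS ⊢
    exact hFmd _ hS _ (Finset.map_subset_map.2 hT)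
  have hFscard : Fs.card ≤ Fm.card := by
    apply Finset.card_le_card_of_injOn (fun S : Finset P => S.map (Function.Embedding.subtype _))
    · intro S hS
      exact (hFsmem S).1 hS
    · intro S _ S' _ h
      exact Finset.map_injective _ h
  have hFsD : ∀ S ∈ Fs, ∏ p ∈ S, (p : ℕ) ^ g p ≤ D := by
    intro S hS
    rw [← prod_map_sub]
    exact hFmD _ ((hFsmem S).1 hS)
  have hlev := level_genG (HG W P g) (cg (bigG W P g) N1 G J)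
    (cg (bigG W P g) N1 (fun _ => 1) J) Fs hFsd m β ((W : ℝ) * (D : ℝ) ^ (2 * m + 1) / N1)
    (fun p : P => ρ p) (fun p : P => b p)
    hm (fun p => hρ0 p p.2) (fun p => hb p p.2) (fun p => hρ p p.2) hβ
    (by
      intro x
      unfold cg
      exact mul_nonneg (by positivity) (Finset.sum_nonneg fun _ _ => hG0 _))
    (by
      intro x
      unfold cg
      apply mul_le_mul_of_nonneg_left _ (by positivity)
      exact Finset.sum_le_sum fun _ _ => hG1 _)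
    (by
      intro S hS x
      rw [EE_cg hP]
      have h1 := hmass _ ((hFsmem S).1 hS) (x.val : ℤ)
      have hbm : ∏ p ∈ S.map (Function.Embedding.subtype _), b p = ∏ p ∈ S, b (p : ℕ) := by
        rw [Finset.prod_map]; rfl
      rw [prod_map_sub, hbm] at h1
      unfold mass at h1
      rw [← hJ] at h1
      have hmr : (0 : ℝ) < (W * ∏ p ∈ S, (p : ℕ) ^ g p : ℕ) := by
        exact_mod_cast hmodpos S
      calc _ ≤ ((W * ∏ p ∈ S, (p : ℕ) ^ g p : ℕ) : ℝ) / N1 *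
            (β * (∏ p ∈ S, b (p : ℕ)) * (N1 / (W * ∏ p ∈ S, (p : ℕ) ^ g p : ℕ))) :=
            mul_le_mul_of_nonneg_left h1 (by positivity)
        _ = (∏ p ∈ S, b (p : ℕ)) * β := by field_simp)
    (by
      intro t ht x
      rw [EE_cg hP]
      set d := W * ∏ p ∈ Finset.univ.sup t, (p : ℕ) ^ g p with hd
      have hdpos : 0 < d := hmodpos _
      have hdr : (0 : ℝ) < d := by exact_mod_cast hdpos
      have hdle : (d : ℝ) ≤ (W : ℝ) * (D : ℝ) ^ (2 * m + 1) := by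
        have h3 : d ≤ W * D ^ (2 * m + 1) := by
          rw [hd]
          exact Nat.mul_le_mul_left _ (prod_sup_le hP D t fun i => hFsD _ (ht i))
        exact_mod_cast h3
      have h5 := count_mod (N1 := N1) hdpos y (x.val : ℤ)
      rw [← hJ] at h5
      rw [Finset.sum_const, nsmul_eq_mul, mul_one]
      set cnt := (((J.filter (fun n : ℤ => n ≡ (x.val : ℤ) [ZMOD (d : ℕ)])).card : ℕ) : ℝ)
      have h6 : (d : ℝ) / N1 * cnt - 1 = (d : ℝ) / N1 * (cnt - (N1 : ℝ) / d) := by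
        field_simp
      rw [h6, abs_mul, abs_of_nonneg (by positivity : (0 : ℝ) ≤ (d : ℝ) / N1)]
      calc (d : ℝ) / N1 * |cnt - (N1 : ℝ) / d| ≤ (d : ℝ) / N1 * 1 :=
            mul_le_mul_of_nonneg_left h5 (by positivity)
        _ = (d : ℝ) / N1 := mul_one _
        _ ≤ _ := by gcongr)
    (by
      have hcard : (Fs.card : ℝ) ≤ Fm.card := by exact_mod_cast hFscard
      rw [div_mul_eq_mul_div, div_le_one hN1r]
      calc (W : ℝ) * (D : ℝ) ^ (2 * m + 1) * (Fs.card : ℝ) ^ (2 * m)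
          ≤ (W : ℝ) * (D : ℝ) ^ (2 * m + 1) * (Fm.card : ℝ) ^ (2 * m) := by gcongr
        _ ≤ N1 := by exact_mod_cast hN1)
  -- the frequencies
  let T : Finset (Σ _ : ℕ, ℕ) := Qs.sigma (fun q => (Finset.range q).filter (Nat.Coprime q))
  let ξf : (Σ _ : ℕ, ℕ) → ZMod (bigG W P g) := fun t =>
    ((t.2 * (bigG W P g / t.1) : ℕ) : ZMod (bigG W P g))
  have hT : ∀ t ∈ T, 1 ≤ t.1 ∧ t.2 < t.1 ∧ Nat.Coprime t.1 t.2 ∧ goodg P g W t.1 ∧
      Ug W t.1 ∈ Fm := by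
    intro t ht
    simp only [T, Finset.mem_sigma, Finset.mem_filter, Finset.mem_range] at ht
    have h1 := hQs t.1 ht.1
    exact ⟨h1.1, ht.2.1, ht.2.2, h1.2.1, h1.2.2⟩
  have hinj : Set.InjOn ξf T := by
    apply freq_inj
    intro t ht
    have h1 := hT t ht
    exact ⟨h1.1, goodg_dvd hP hW h1.1 h1.2.2.2.1, h1.2.1, h1.2.2.1⟩
  have hmap : ∀ t ∈ T, (UfG (ξf t)).map (Function.Embedding.subtype _) = Ug W t.1 := by
    intro t ht
    have h1 := hT t ht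
    exact map_UfG hP hW h1.1 h1.2.2.2.1 h1.2.2.1
  have hbes := bessel_gG (HG W P g) (cg (bigG W P g) N1 G J) Fs (fun p : P => ρ p)
    (2 * β ^ 2 * (1 + β ^ (-(1 / (m : ℝ)))))
    (T.image ξf) UfG (by
      intro ξ _ p
      simp only [UfG, Finset.mem_filter, Finset.mem_univ, true_and])
    (by
      intro ξ hξ
      rw [Finset.mem_image] at hξ
      obtain ⟨t, ht, rfl⟩ := hξ
      rw [hFsmem, hmap t ht]
      exact (hT t ht).2.2.2.2)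
    (fun p => hρ0 p p.2) hlev
  rw [Finset.sum_image hinj] at hbes
  have hsum : ∑ q ∈ Qs, (∏ p ∈ Ug W q, ρ p) * enG G y N1 q =
      ∑ t ∈ T, (∏ p ∈ Ug W t.1, ρ p) * ‖Fw G y N1 ((t.2 : ℝ) / t.1)‖ ^ 2 := by
    simp only [T]
    rw [Finset.sum_sigma]
    refine Finset.sum_congr rfl fun q _ => ?_
    unfold enG
    rw [Finset.mul_sum]
  rw [hsum]
  have hterm : ∀ t ∈ T, (∏ p ∈ Ug W t.1, ρ p) * ‖Fw G y N1 ((t.2 : ℝ) / t.1)‖ ^ 2 =
      ((N1 : ℝ) / (bigG W P g : ℝ)) ^ 2 * ((∏ p ∈ UfG (ξf t), ρ (p : ℕ)) *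
        ‖ftz (fun z => (cg (bigG W P g) N1 G J z : ℂ)) (ξf t)‖ ^ 2) := by
    intro t ht
    have h1 := hT t ht
    have h2 : ∏ p ∈ UfG (ξf t), ρ (p : ℕ) = ∏ p ∈ Ug W t.1, ρ p := by
      rw [← hmap t ht, Finset.prod_map]
      rfl
    rw [h2]
    simp only [ξf]
    rw [hJ, ftz_cg N1 G y h1.1 (goodg_dvd hP hW h1.1 h1.2.2.2.1), norm_mul, Complex.norm_real,
      Real.norm_eq_abs, abs_of_nonneg (by positivity), mul_pow]
    generalize ‖Fw G y N1 ((t.2 : ℝ) / t.1)‖ = Z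
    field_simp
  rw [Finset.sum_congr rfl hterm, ← Finset.mul_sum]
  calc ((N1 : ℝ) / (bigG W P g : ℝ)) ^ 2 * _ ≤ ((N1 : ℝ) / (bigG W P g : ℝ)) ^ 2 *
        ((bigG W P g : ℝ) ^ 2 * (2 * β ^ 2 * (1 + β ^ (-(1 / (m : ℝ)))))) :=
        mul_le_mul_of_nonneg_left hbes (by positivity)
    _ = (N1 : ℝ) ^ 2 * (2 * β ^ 2 * (1 + β ^ (-(1 / (m : ℝ))))) := by field_simp

end Vale.Agent.P042.SS
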