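import Vale.Agent.P042.SS.LIa

set_option autoImplicit false

/-!
Block LI2, abstract part: the level inequality for a down-closed family with coordinatewise
noise rates `q i` and coordinatewise growth `b i` (condition `12 m (q i) (1 + b i) ≤ 1`).
-/

set_option linter.unusedSectionVars false

namespace Vale.Agent.P042.SS.LIG

open Finset Vale.Agent.P042 Vale.Agent.P042.Sharp

universe u v

variable {G : Type u} [AddCommGroup G] [Fintype G]
variable {ι : Type v} [Fintype ι] [DecidableEq ι] (Hs : ι → AddSubgroup G)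

/-- weighted sum of components -/
noncomputable def vopG (σ : ι → ℝ) (Fm : Finset (Finset ι)) (S : Finset ι) :
    AddMonoidAlgebra ℝ G :=
  ∑ W ∈ fam Fm S, (∏ i ∈ W, σ i) • Pop Hs Sᶜ W

/-- weighted sum of the local second moments of the components -/
noncomputable def PhiG (F : G → ℝ) (q : ι → ℝ) (Fm : Finset (Finset ι)) (S : Finset ι)
    (x : G) : ℝ :=
  ∑ W ∈ fam Fm S, (∏ i ∈ W, q i) * act (Aop Hs Sᶜ) (fun z => (act (Pop Hs Sᶜ W) F z) ^ 2) x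

lemma PhiG_nonneg (F : G → ℝ) (q : ι → ℝ) (hq : ∀ i, 0 ≤ q i) (Fm : Finset (Finset ι))
    (S : Finset ι) (x : G) : 0 ≤ PhiG Hs F q Fm S x :=
  Finset.sum_nonneg fun _ _ => mul_nonneg (Finset.prod_nonneg fun _ _ => hq _)
    (Aop_nonneg Hs _ (fun _ => sq_nonneg _) x)

lemma Top_mul_vopG (r : ℝ) (σ q : ι → ℝ) (h : ∀ i, r * σ i = q i) (Fm : Finset (Finset ι))
    (S : Finset ι) : Top Hs r Sᶜ * vopG Hs σ Fm S = vopG Hs q Fm S := by
  rw [vopG, vopG, Finset.mul_sum]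
  refine Finset.sum_congr rfl fun W hW => ?_
  rw [mul_smul_comm, Top_mul_Pop Hs _ (mem_fam.mp hW).1, smul_smul]
  congr 1
  rw [mul_comm, Finset.pow_card_mul_prod]
  exact Finset.prod_congr rfl fun i _ => h i

lemma Dop_mul_vopG' (σ : ι → ℝ) (Fm : Finset (Finset ι)) {S U : Finset ι} (hU : U ⊆ Sᶜ) :
    Dop Hs U * vopG Hs σ Fm S
      = ∑ W ∈ fam Fm S, (if U ⊆ W then ∏ i ∈ W, σ i else 0) • Pop Hs Sᶜ W := by
  rw [vopG, Finset.mul_sum]
  refine Finset.sum_congr rfl fun W _ => ?_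
  rw [mul_smul_comm, Dop_mul_Pop Hs hU]
  split_ifs with h
  · rfl
  · rw [smul_zero, zero_smul]

lemma Dop_mul_vopG (σ : ι → ℝ) (Fm : Finset (Finset ι)) {S U : Finset ι} (hU : U ⊆ Sᶜ) :
    Dop Hs U * vopG Hs σ Fm S = (∏ i ∈ U, σ i) • (Dop Hs U * vopG Hs σ Fm (S ∪ U)) := by
  have hdis : ∀ i ∈ U, i ∉ S := fun i hi => Finset.mem_compl.mp (hU hi)
  have h1 : Dop Hs U * vopG Hs σ Fm S
      = ∑ W ∈ (fam Fm S).filter (fun W => U ⊆ W), (∏ i ∈ W, σ i) • Pop Hs Sᶜ W := by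
    rw [Dop_mul_vopG' Hs σ Fm hU, Finset.sum_filter]
    refine Finset.sum_congr rfl fun W _ => ?_
    split_ifs with h
    · rfl
    · rw [zero_smul]
  rw [h1, vopG, Finset.mul_sum, Finset.smul_sum]
  symm
  refine Finset.sum_nbij' (fun W => U ∪ W) (fun W => W \ U) ?_ ?_ ?_ ?_ ?_
  · intro W hW
    obtain ⟨h2, h3⟩ := mem_fam.mp hW
    rw [Finset.mem_filter, mem_fam]
    have hUW : ∀ i ∈ W, i ∉ U ∧ i ∉ S := by
      intro i hi
      have := Finset.mem_compl.mp (h2 hi)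
      rw [Finset.mem_union, not_or] at this
      exact ⟨this.2, this.1⟩
    refine ⟨⟨?_, ?_⟩, Finset.subset_union_left⟩
    · apply Finset.union_subset hU
      intro i hi
      exact Finset.mem_compl.mpr (hUW i hi).2
    · rw [← Finset.union_assoc]
      exact h3
  · intro W hW
    rw [Finset.mem_filter, mem_fam] at hW
    obtain ⟨⟨h2, h3⟩, h4⟩ := hW
    rw [mem_fam]
    constructor
    · intro i hi
      rw [Finset.mem_sdiff] at hi
      rw [Finset.mem_compl, Finset.mem_union, not_or]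
      exact ⟨Finset.mem_compl.mp (h2 hi.1), hi.2⟩
    · rw [Finset.union_assoc, Finset.union_sdiff_of_subset h4]
      exact h3
  · intro W hW
    obtain ⟨h2, h3⟩ := mem_fam.mp hW
    ext i
    simp only [Finset.mem_sdiff, Finset.mem_union]
    constructor
    · rintro ⟨h | h, h'⟩
      · exact absurd h h'
      · exact h
    · intro h
      refine ⟨Or.inr h, fun h' => ?_⟩
      have := Finset.mem_compl.mp (h2 h)
      exact this (Finset.mem_union_right _ h')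
  · intro W hW
    rw [Finset.mem_filter] at hW
    exact Finset.union_sdiff_of_subset hW.2
  · intro W hW
    obtain ⟨h2, h3⟩ := mem_fam.mp hW
    have hUW : ∀ i ∈ W, i ∉ U ∧ i ∉ S := by
      intro i hi
      have := Finset.mem_compl.mp (h2 hi)
      rw [Finset.mem_union, not_or] at this
      exact ⟨this.2, this.1⟩
    have h4 : (S ∪ U)ᶜ \ W = Sᶜ \ (U ∪ W) := by
      ext i
      simp only [Finset.mem_sdiff, Finset.mem_compl, Finset.mem_union]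
      (clear * -; tauto)
    rw [mul_smul_comm, smul_smul, Pop, Pop, ← mul_assoc, Dop_mul_Dop, h4,
      Finset.prod_union (Finset.disjoint_left.mpr fun i hi hi' => (hUW i hi').1 hi)]

lemma A3G (F : G → ℝ) (σ q : ι → ℝ) (hσq : ∀ i, σ i ^ 2 ≤ q i) (Fm : Finset (Finset ι))
    (hFm : ∀ S ∈ Fm, ∀ T, T ⊆ S → T ∈ Fm) {S V : Finset ι} (hV : V ⊆ S) (x : G) :
    act (Aop Hs Sᶜ) (fun z => (act (Aop Hs V * vopG Hs σ Fm S) F z) ^ 2) x
      ≤ PhiG Hs F q Fm (S \ V) x := by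
  have hq0 : ∀ i, 0 ≤ q i := fun i => (sq_nonneg _).trans (hσq i)
  have h1 : act (Aop Hs V * vopG Hs σ Fm S) F
      = act (∑ W ∈ fam Fm S, (∏ i ∈ W, σ i) • Pop Hs Sᶜ W) (act (Aop Hs V) F) := by
    rw [mul_comm, act_mul, vopG]
  rw [h1, norm_sum Hs (fam Fm S) (fun W hW => (mem_fam.mp hW).1) (fun W => ∏ i ∈ W, σ i)]
  have hcompl : (S \ V)ᶜ = Sᶜ ∪ V := by
    ext i
    simp only [Finset.mem_sdiff, Finset.mem_compl, Finset.mem_union]
    (clear * -; tauto)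
  have hsub : fam Fm S ⊆ fam Fm (S \ V) := by
    intro W hW
    obtain ⟨h2, h3⟩ := mem_fam.mp hW
    rw [mem_fam]
    refine ⟨fun i hi => ?_, ?_⟩
    · rw [hcompl]
      exact Finset.mem_union_left _ (h2 hi)
    · exact hFm _ h3 _ (Finset.union_subset_union_left Finset.sdiff_subset)
  rw [PhiG]
  refine le_trans ?_ (Finset.sum_le_sum_of_subset_of_nonneg hsub fun W _ _ =>
    mul_nonneg (Finset.prod_nonneg fun _ _ => hq0 _)
      (Aop_nonneg Hs _ (fun _ => sq_nonneg _) x))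
  refine Finset.sum_le_sum fun W hW => ?_
  obtain ⟨h2, h3⟩ := mem_fam.mp hW
  have hdis : Disjoint V W := by
    rw [Finset.disjoint_left]
    intro i hi hi'
    exact Finset.mem_compl.mp (h2 hi') (hV hi)
  have h4 : act (Pop Hs Sᶜ W) (act (Aop Hs V) F) = act (Pop Hs (S \ V)ᶜ W) F := by
    rw [← act_mul, Pop_mul_Aop Hs hdis, hcompl]
  rw [h4]
  have h5 : act (Aop Hs Sᶜ) (fun z => (act (Pop Hs (S \ V)ᶜ W) F z) ^ 2) x
      = act (Aop Hs (S \ V)ᶜ) (fun z => (act (Pop Hs (S \ V)ᶜ W) F z) ^ 2) x := by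
    have h6 : act (Aop Hs V) (fun z => (act (Pop Hs (S \ V)ᶜ W) F z) ^ 2)
        = (fun z => (act (Pop Hs (S \ V)ᶜ W) F z) ^ 2) := by
      apply act_Eop_invt
      intro h hh z
      have h7 : Invt ((V).sup Hs) (act (Pop Hs Sᶜ W * Aop Hs V) F) := invt_act _ _ _
      rw [Pop_mul_Aop Hs hdis, ← hcompl] at h7
      change (act (Pop Hs (S \ V)ᶜ W) F (z + h)) ^ 2 = (act (Pop Hs (S \ V)ᶜ W) F z) ^ 2
      rw [h7 h hh z]
    rw [hcompl, ← Aop_mul, act_mul]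
    rw [hcompl] at h6
    rw [h6]
  rw [h5]
  apply mul_le_mul_of_nonneg_right _ (Aop_nonneg Hs _ (fun _ => sq_nonneg _) x)
  rw [← Finset.prod_pow]
  exact Finset.prod_le_prod (fun i _ => sq_nonneg _) (fun i _ => hσq i)

lemma prod_one_add_eq (b : ι → ℝ) (U : Finset ι) :
    ∏ i ∈ U, (1 + b i) = ∑ V ∈ U.powerset, ∏ i ∈ U \ V, b i := by
  rw [Finset.prod_add]
  refine Finset.sum_congr rfl fun V _ => ?_
  rw [Finset.prod_const_one, one_mul]

lemma A4G (F : G → ℝ) (σ q b : ι → ℝ) (K : ℝ) (hb : ∀ i, 1 ≤ b i) (hσq : ∀ i, σ i ^ 2 ≤ q i)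
    (Fm : Finset (Finset ι)) (hFm : ∀ S ∈ Fm, ∀ T, T ⊆ S → T ∈ Fm)
    (hK : ∀ S x, PhiG Hs F q Fm S x ≤ K * ∏ i ∈ S, b i ^ 2) {S U : Finset ι} (hU : U ⊆ Sᶜ)
    (x : G) :
    act (Aop Hs (Sᶜ \ U)) (fun z => (act (Dop Hs U * vopG Hs σ Fm S) F z) ^ 2) x
      ≤ (∏ i ∈ U, (1 + b i) ^ 2 * σ i ^ 2) * (K * ∏ i ∈ S, b i ^ 2) := by
  have hq0 : ∀ i, 0 ≤ q i := fun i => (sq_nonneg _).trans (hσq i)
  have hb0 : ∀ i, 0 < b i := fun i => lt_of_lt_of_le one_pos (hb i)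
  have hdis : ∀ i ∈ U, i ∉ S := fun i hi => Finset.mem_compl.mp (hU hi)
  have hcomp : Sᶜ \ U = (S ∪ U)ᶜ := by
    ext i
    simp only [Finset.mem_sdiff, Finset.mem_compl, Finset.mem_union]
    (clear * -; tauto)
  have hpr : ∀ V : Finset ι, 0 < ∏ i ∈ V, b i := fun V => Finset.prod_pos fun i _ => hb0 i
  -- pointwise Cauchy-Schwarz
  have hpt : ∀ z, (act (Dop Hs U * vopG Hs σ Fm S) F z) ^ 2
      ≤ (∏ i ∈ U, σ i ^ 2) * ((∏ i ∈ U, (1 + b i)) * ∑ V ∈ U.powerset,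
          (∏ i ∈ U \ V, b i)⁻¹ * (act (Aop Hs V * vopG Hs σ Fm (S ∪ U)) F z) ^ 2) := by
    intro z
    rw [Dop_mul_vopG Hs σ Fm hU, act_smul, mul_pow, ← Finset.prod_pow]
    apply mul_le_mul_of_nonneg_left _ (Finset.prod_nonneg fun _ _ => sq_nonneg _)
    rw [Dop_eq_sum, Finset.sum_mul, act_sum, prod_one_add_eq]
    apply Finset.sum_sq_le_sum_mul_sum_of_sq_le_mul
    · intro V _; exact (hpr _).le
    · intro V _; exact mul_nonneg (inv_nonneg.2 (hpr _).le) (sq_nonneg _)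
    · intro V _
      rw [smul_mul_assoc, act_smul, mul_pow, ← pow_mul, mul_comm V.card 2, pow_mul, neg_one_sq,
        one_pow, one_mul, ← mul_assoc, mul_inv_cancel₀ (hpr _).ne', one_mul]
  refine le_trans (Aop_mono Hs _ hpt x) ?_
  rw [act_fun_mul, act_fun_mul, act_fun_sum]
  have hterm : ∑ V ∈ U.powerset, act (Aop Hs (Sᶜ \ U)) (fun z =>
        (∏ i ∈ U \ V, b i)⁻¹ * (act (Aop Hs V * vopG Hs σ Fm (S ∪ U)) F z) ^ 2) x
      ≤ (K * ∏ i ∈ S, b i ^ 2) * ∏ i ∈ U, (1 + b i) := by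
    rw [prod_one_add_eq, Finset.mul_sum]
    refine Finset.sum_le_sum fun V hV => ?_
    rw [Finset.mem_powerset] at hV
    rw [act_fun_mul, hcomp]
    have h4 := A3G Hs F σ q hσq Fm hFm (S := S ∪ U) (V := V)
      (hV.trans Finset.subset_union_right) x
    have h5 := hK ((S ∪ U) \ V) x
    have h6 : (S ∪ U) \ V = S ∪ (U \ V) := by
      ext i
      simp only [Finset.mem_sdiff, Finset.mem_union]
      constructor
      · rintro ⟨h | h, h'⟩
        · exact Or.inl h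
        · exact Or.inr ⟨h, h'⟩
      · rintro (h | ⟨h, h'⟩)
        · exact ⟨Or.inl h, fun h' => hdis i (hV h') h⟩
        · exact ⟨Or.inr h, h'⟩
    have h7 : Disjoint S (U \ V) := by
      rw [Finset.disjoint_left]
      intro i hi hi'
      exact hdis i (Finset.mem_sdiff.mp hi').1 hi
    have h8 : ∏ i ∈ (S ∪ U) \ V, b i ^ 2 = (∏ i ∈ S, b i ^ 2) * (∏ i ∈ U \ V, b i) ^ 2 := by
      rw [h6, Finset.prod_union h7, Finset.prod_pow (U \ V)]
    rw [h8] at h5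
    rw [inv_mul_le_iff₀ (hpr _)]
    refine (h4.trans h5).trans (le_of_eq ?_)
    ring
  have h9 : (∏ i ∈ U, σ i ^ 2) * ((∏ i ∈ U, (1 + b i)) *
        ((K * ∏ i ∈ S, b i ^ 2) * ∏ i ∈ U, (1 + b i)))
      = (∏ i ∈ U, (1 + b i) ^ 2 * σ i ^ 2) * (K * ∏ i ∈ S, b i ^ 2) := by
    rw [Finset.prod_mul_distrib, Finset.prod_pow U 2 (fun i => 1 + b i)]
    ring
  rw [← h9]
  apply mul_le_mul_of_nonneg_left _ (Finset.prod_nonneg fun _ _ => sq_nonneg _)
  exact mul_le_mul_of_nonneg_left hterm (Finset.prod_nonneg fun i _ => by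
    have := hb0 i
    linarith)

lemma A5G (F : G → ℝ) (σ q : ι → ℝ) (hσq : ∀ i, 2 * σ i ^ 2 ≤ q i) (Fm : Finset (Finset ι))
    (S : Finset ι) (x : G) :
    ∑ U ∈ (Sᶜ).powerset, act (Aop Hs Sᶜ)
        (fun z => (act (Dop Hs U * vopG Hs σ Fm S) F z) ^ 2) x
      ≤ PhiG Hs F q Fm S x := by
  have h1 : ∀ U ∈ (Sᶜ).powerset,
      act (Aop Hs Sᶜ) (fun z => (act (Dop Hs U * vopG Hs σ Fm S) F z) ^ 2) x
        = ∑ W ∈ fam Fm S, (if U ⊆ W then (1 : ℝ) else 0) *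
            ((∏ i ∈ W, σ i ^ 2) *
              act (Aop Hs Sᶜ) (fun z => (act (Pop Hs Sᶜ W) F z) ^ 2) x) := by
    intro U hU
    rw [Dop_mul_vopG' Hs σ Fm (Finset.mem_powerset.mp hU),
      norm_sum Hs (fam Fm S) (fun W hW => (mem_fam.mp hW).1)
        (fun W => if U ⊆ W then ∏ i ∈ W, σ i else 0)]
    refine Finset.sum_congr rfl fun W _ => ?_
    split_ifs with h
    · rw [one_mul, ← Finset.prod_pow]
    · ring
  rw [Finset.sum_congr rfl h1, Finset.sum_comm, PhiG]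
  refine Finset.sum_le_sum fun W hW => ?_
  rw [← Finset.sum_mul, ← Finset.sum_filter, Finset.sum_const, nsmul_eq_mul, mul_one]
  have h2 : (Sᶜ).powerset.filter (fun U => U ⊆ W) = W.powerset := by
    ext U
    simp only [Finset.mem_filter, Finset.mem_powerset]
    constructor
    · exact fun h => h.2
    · exact fun h => ⟨h.trans (mem_fam.mp hW).1, h⟩
  rw [h2, Finset.card_powerset, ← mul_assoc]
  apply mul_le_mul_of_nonneg_right _ (Aop_nonneg Hs _ (fun _ => sq_nonneg _) x)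
  push_cast
  rw [Finset.pow_card_mul_prod]
  exact Finset.prod_le_prod (fun i _ => by positivity) (fun i _ => hσq i)

/-- moment bound -/
lemma A6G (F : G → ℝ) (m : ℕ) (hm : 1 ≤ m) (r K : ℝ) (σ q b : ι → ℝ)
    (hr : 4 * m * r ^ 2 = 1) (hb : ∀ i, 1 ≤ b i)
    (hrσ : ∀ i, r * σ i = q i) (hσq : ∀ i, 2 * σ i ^ 2 ≤ q i)
    (hcon : ∀ i, (4 * m : ℝ) ^ m * ((1 + b i) ^ 2 * σ i ^ 2) ^ (m - 1) ≤ 1)
    (Fm : Finset (Finset ι)) (hFm : ∀ S ∈ Fm, ∀ T, T ⊆ S → T ∈ Fm)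
    (hK : ∀ S x, PhiG Hs F q Fm S x ≤ K * ∏ i ∈ S, b i ^ 2) (S : Finset ι) (x : G) :
    act (Aop Hs Sᶜ) (fun z => (act (vopG Hs q Fm S) F z) ^ (2 * m)) x
      ≤ (K * ∏ i ∈ S, b i ^ 2) ^ m := by
  have hσq' : ∀ i, σ i ^ 2 ≤ q i := fun i => by
    have := hσq i
    have := sq_nonneg (σ i)
    linarith
  have hq0 : ∀ i, 0 ≤ q i := fun i => (sq_nonneg _).trans (hσq' i)
  have hK0 : 0 ≤ K * ∏ i ∈ S, b i ^ 2 := (PhiG_nonneg Hs F q hq0 Fm S x).trans (hK S x)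
  have key := hyper Hs m hm r hr Sᶜ PUnit.{u+1} Finset.univ (fun _ => act (vopG Hs σ Fm S) F) x
  simp only [univ_unique, ← act_mul, Top_mul_vopG Hs r σ q hrσ, sum_singleton, ← pow_mul] at key
  refine key.trans ?_
  have h3 : ∀ U ∈ (Sᶜ).powerset,
      (4 * m : ℝ) ^ (m * U.card) * act (Aop Hs U) (fun z => (act (Aop Hs (Sᶜ \ U))
          (fun w => (act (Dop Hs U * vopG Hs σ Fm S) F w) ^ 2) z) ^ m) x
        ≤ (K * ∏ i ∈ S, b i ^ 2) ^ (m - 1) *
            act (Aop Hs Sᶜ) (fun z => (act (Dop Hs U * vopG Hs σ Fm S) F z) ^ 2) x := by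
    intro U hU
    rw [Finset.mem_powerset] at hU
    have h4 : ∀ z, (act (Aop Hs (Sᶜ \ U))
          (fun w => (act (Dop Hs U * vopG Hs σ Fm S) F w) ^ 2) z) ^ m
        ≤ ((∏ i ∈ U, (1 + b i) ^ 2 * σ i ^ 2) * (K * ∏ i ∈ S, b i ^ 2)) ^ (m - 1) *
          act (Aop Hs (Sᶜ \ U))
          (fun w => (act (Dop Hs U * vopG Hs σ Fm S) F w) ^ 2) z := by
      intro z
      have h5 := A4G Hs F σ q b K hb hσq' Fm hFm hK hU z
      have h6 : 0 ≤ act (Aop Hs (Sᶜ \ U))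
          (fun w => (act (Dop Hs U * vopG Hs σ Fm S) F w) ^ 2) z :=
        Aop_nonneg Hs _ (fun _ => sq_nonneg _) z
      have h7 : m = (m - 1) + 1 := by omega
      conv_lhs => rw [h7, pow_succ]
      exact mul_le_mul_of_nonneg_right (pow_le_pow_left₀ h6 h5 _) h6
    have h5 := Aop_mono Hs U h4 x
    rw [act_fun_mul] at h5
    have h6 : act (Aop Hs U) (fun z => act (Aop Hs (Sᶜ \ U))
          (fun w => (act (Dop Hs U * vopG Hs σ Fm S) F w) ^ 2) z) x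
        = act (Aop Hs Sᶜ) (fun z => (act (Dop Hs U * vopG Hs σ Fm S) F z) ^ 2) x := by
      change act (Aop Hs U) (act (Aop Hs (Sᶜ \ U)) _) x = _
      rw [← act_mul, Aop_mul, Finset.union_sdiff_of_subset hU]
    rw [h6] at h5
    refine (mul_le_mul_of_nonneg_left h5 (by positivity)).trans ?_
    have h8 : (4 * m : ℝ) ^ (m * U.card) * (((∏ i ∈ U, (1 + b i) ^ 2 * σ i ^ 2) *
          (K * ∏ i ∈ S, b i ^ 2)) ^ (m - 1) *
          act (Aop Hs Sᶜ) (fun z => (act (Dop Hs U * vopG Hs σ Fm S) F z) ^ 2) x)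
        = (∏ i ∈ U, (4 * m : ℝ) ^ m * ((1 + b i) ^ 2 * σ i ^ 2) ^ (m - 1)) *
          ((K * ∏ i ∈ S, b i ^ 2) ^ (m - 1) *
          act (Aop Hs Sᶜ) (fun z => (act (Dop Hs U * vopG Hs σ Fm S) F z) ^ 2) x) := by
      rw [← Finset.pow_card_mul_prod, ← pow_mul,
        Finset.prod_pow U (m - 1) (fun i => (1 + b i) ^ 2 * σ i ^ 2)]
      generalize (∏ i ∈ U, (1 + b i) ^ 2 * σ i ^ 2) = X
      generalize (K * ∏ i ∈ S, b i ^ 2) = Y
      rw [mul_pow X Y]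
      ring
    rw [h8]
    have h9 : (∏ i ∈ U, (4 * m : ℝ) ^ m * ((1 + b i) ^ 2 * σ i ^ 2) ^ (m - 1)) ≤ 1 :=
      Finset.prod_le_one (fun i _ => by positivity) (fun i _ => hcon i)
    have h10 : 0 ≤ (K * ∏ i ∈ S, b i ^ 2) ^ (m - 1) *
          act (Aop Hs Sᶜ) (fun z => (act (Dop Hs U * vopG Hs σ Fm S) F z) ^ 2) x :=
      mul_nonneg (pow_nonneg hK0 _) (Aop_nonneg Hs _ (fun _ => sq_nonneg _) x)
    nlinarith only [h9, h10]
  refine (Finset.sum_le_sum h3).trans ?_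
  rw [← Finset.mul_sum]
  have h8 : (K * ∏ i ∈ S, b i ^ 2) ^ m =
      (K * ∏ i ∈ S, b i ^ 2) ^ (m - 1) * (K * ∏ i ∈ S, b i ^ 2) := by
    rw [← pow_succ]; congr 1; omega
  rw [h8]
  apply mul_le_mul_of_nonneg_left _ (pow_nonneg hK0 _)
  exact (A5G Hs F σ q hσq Fm S x).trans (hK S x)

lemma A7G (F : G → ℝ) (q : ι → ℝ) (Fm : Finset (Finset ι)) (S : Finset ι) (x : G) :
    PhiG Hs F q Fm S x = act (Aop Hs Sᶜ) (fun z => F z * act (vopG Hs q Fm S) F z) x := by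
  have h1 : (fun z => F z * act (vopG Hs q Fm S) F z)
      = fun z => ∑ W ∈ fam Fm S, (∏ i ∈ W, q i) * (F z * act (Pop Hs Sᶜ W) F z) := by
    funext z
    rw [vopG, act_sum, Finset.mul_sum]
    refine Finset.sum_congr rfl fun W _ => ?_
    rw [act_smul]
    ring
  rw [h1, act_fun_sum, PhiG]
  refine Finset.sum_congr rfl fun W hW => ?_
  rw [act_fun_mul]
  congr 1
  have h2 := SA_Pop Hs (mem_fam.mp hW).1 F (act (Pop Hs Sᶜ W) F) x
  simp only [← act_mul, Pop_idem] at h2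
  rw [Aop, h2]
  simp only [sq]

end Vale.Agent.P042.SS.LIG
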