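import Vale.Agent.P042.SS2.LiA

set_option autoImplicit false

/-!
Block LI2, abstract part 2: the level inequality with growth.
-/

set_option linter.unusedSectionVars false

namespace Vale.Agent.P042.SS.LIG

open Finset Vale.Agent.P042 Vale.Agent.P042.Sharp

universe u v

section aux

variable {G : Type u} [AddCommGroup G] [Fintype G]
variable {ι : Type v} [Fintype ι] [DecidableEq ι] (Hs : ι → AddSubgroup G)

/-- supremum bound of the components -/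
lemma sup_boundG (F : G → ℝ) (β : ℝ) (b : ι → ℝ)
    (Fm : Finset (Finset ι)) (hFm : ∀ S ∈ Fm, ∀ T, T ⊆ S → T ∈ Fm)
    (hF : ∀ x, 0 ≤ F x)
    (h2 : ∀ S ∈ Fm, ∀ x, act (Aop Hs Sᶜ) F x ≤ (∏ i ∈ S, b i) * β)
    {S W : Finset ι} (hW : W ∈ fam Fm S) (z : G) :
    |act (Pop Hs Sᶜ W) F z| ≤ (∏ i ∈ S, b i) * (∏ i ∈ W, (1 + b i)) * β := by
  obtain ⟨hWS, hc⟩ := mem_fam.mp hW
  have hdis : ∀ i ∈ W, i ∉ S := fun i hi => Finset.mem_compl.mp (hWS hi)
  rw [Pop, Dop_eq_sum, Finset.sum_mul, act_sum, prod_one_add_eq, Finset.mul_sum, Finset.sum_mul]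
  refine (Finset.abs_sum_le_sum_abs _ _).trans (Finset.sum_le_sum fun V hV => ?_)
  rw [Finset.mem_powerset] at hV
  rw [smul_mul_assoc, act_smul, abs_mul, abs_pow, abs_neg, abs_one, one_pow, one_mul, Aop_mul]
  have hcomp : V ∪ Sᶜ \ W = (S ∪ (W \ V))ᶜ := by
    ext i
    simp only [Finset.mem_sdiff, Finset.mem_compl, Finset.mem_union]
    constructor
    · rintro (h | ⟨h, h'⟩)
      · rintro (h1 | ⟨h1, h1'⟩)
        · exact hdis i (hV h) h1
        · exact h1' h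
      · rintro (h1 | ⟨h1, h1'⟩)
        · exact h h1
        · exact h' h1
    · intro h
      by_cases h1 : i ∈ V
      · exact Or.inl h1
      · refine Or.inr ⟨fun h2 => h (Or.inl h2), fun h2 => h (Or.inr ⟨h2, h1⟩)⟩
  have hd : Disjoint S (W \ V) := by
    rw [Finset.disjoint_left]
    intro i hi hi'
    exact hdis i (Finset.mem_sdiff.mp hi').1 hi
  rw [hcomp, abs_of_nonneg (Aop_nonneg Hs _ hF z)]
  have h5 := h2 (S ∪ (W \ V))
    (hFm _ hc _ (Finset.union_subset_union_right Finset.sdiff_subset)) z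
  rw [Finset.prod_union hd] at h5
  exact h5

/-- the key inequality at a maximiser -/
lemma key_at_maxG
    (F ν : G → ℝ) (Fm : Finset (Finset ι))
    (hFm : ∀ S ∈ Fm, ∀ T, T ⊆ S → T ∈ Fm) (m : ℕ) (β ε A : ℝ) (q b : ι → ℝ)
    (hb : ∀ i, 1 ≤ b i) (hq0 : ∀ i, 0 ≤ q i) (hq3 : ∀ i, q i * (1 + b i) ≤ 1) (hε0 : 0 ≤ ε)
    (hβ : 0 < β) (hm : 1 ≤ m)
    (hF : ∀ x, 0 ≤ F x) (hFν : ∀ x, F x ≤ ν x)
    (h2 : ∀ S ∈ Fm, ∀ x, act (Aop Hs Sᶜ) F x ≤ (∏ i ∈ S, b i) * β)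
    (hν : ∀ 𝒯 : Fin (2 * m + 1) → Finset ι, (∀ i, 𝒯 i ∈ Fm) →
      ∀ x, |act (Aop Hs (Finset.univ.sup 𝒯)ᶜ) ν x - 1| ≤ ε)
    (hε : ε * (Fm.card : ℝ) ^ (2 * m) ≤ 1)
    (S : Finset ι) (x0 : G) (hSF : S ∈ Fm)
    (hKeq : PhiG Hs F q Fm S x0 = A)
    (hmom : act (Aop Hs Sᶜ) (fun z => (act (vopG Hs q Fm S) F z) ^ (2 * m)) x0 ≤ A ^ m) :
    A ^ (2 * m)
      ≤ ((∏ i ∈ S, b i) * β) ^ (2 * m - 1) * (A ^ m + ((∏ i ∈ S, b i) * β) ^ (2 * m)) := by
  have hphi := A7G Hs F q Fm S x0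
  have hhol := holder (Sᶜ.sup Hs) F (act (vopG Hs q Fm S) F) hF (2 * m) (even_two_mul m)
    (by omega) x0
  have hpb : ∀ V : Finset ι, 0 < ∏ i ∈ V, b i :=
    fun V => Finset.prod_pos fun i _ => lt_of_lt_of_le one_pos (hb i)
  have hb0 : 0 < (∏ i ∈ S, b i) * β := mul_pos (hpb S) hβ
  have hpq : ∀ V : Finset ι, 0 ≤ ∏ i ∈ V, q i := fun V => Finset.prod_nonneg fun i _ => hq0 i
  have hpb1 : ∀ V : Finset ι, 0 ≤ ∏ i ∈ V, (1 + b i) := fun V => Finset.prod_nonneg fun i _ => by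
    have := hb i
    linarith
  have htr := transfer Hs S ν ε hε0 (2 * m + 1)
    (fun k T => ∃ L : Fin k → Finset ι, (∀ i, L i ∈ Fm) ∧ T = Finset.univ.sup L)
    (fun T hT x => by
      obtain ⟨L, hL, rfl⟩ := hT
      exact hν L hL x) (fam Fm S)
    (fun W => ∏ i ∈ W, q i) (fun W => (∏ i ∈ S, b i) * (∏ i ∈ W, (1 + b i)) * β)
    (fun W => act (Pop Hs Sᶜ W) F) (fun W _ => hpq W)
    (fun W hW k T hST hT => by
      obtain ⟨L, hL, rfl⟩ := hT
      refine ⟨Fin.cons (S ∪ W) L, ?_, ?_⟩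
      · intro i
        refine Fin.cases ?_ ?_ i
        · rw [Fin.cons_zero]; exact (mem_fam.mp hW).2
        · intro j; rw [Fin.cons_succ]; exact hL j
      · ext i
        rw [Finset.mem_union, Finset.mem_sup, Finset.mem_sup]
        constructor
        · rintro (⟨j, _, hj⟩ | h)
          · exact ⟨j.succ, Finset.mem_univ _, by rw [Fin.cons_succ]; exact hj⟩
          · exact ⟨0, Finset.mem_univ _, by
              rw [Fin.cons_zero]; exact Finset.mem_union_right _ h⟩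
        · rintro ⟨j, _, hj⟩
          revert hj
          refine Fin.cases ?_ ?_ j
          · rw [Fin.cons_zero, Finset.mem_union]
            rintro (h | h)
            · left
              have := hST h
              rw [Finset.mem_sup] at this
              exact this
            · exact Or.inr h
          · intro j' hj'
            rw [Fin.cons_succ] at hj'
            exact Or.inl ⟨j', Finset.mem_univ _, hj'⟩)
    (fun W _ => invt_act _ _ _) (fun W hW z => sup_boundG Hs F β b Fm hFm hF h2 hW z) x0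
    (2 * m) 1 S (fun _ => 1) 1 zero_le_one (Finset.Subset.refl _) (by omega)
    ⟨fun _ => S, fun _ => hSF, by
      ext i
      rw [Finset.mem_sup]
      exact ⟨fun h => ⟨0, Finset.mem_univ _, h⟩, fun ⟨_, _, h⟩ => h⟩⟩
    (fun _ _ _ => rfl) (fun _ => by simp)
  have hu : ∀ z, ∑ W ∈ fam Fm S, (∏ i ∈ W, q i) * act (Pop Hs Sᶜ W) F z
      = act (vopG Hs q Fm S) F z := by
    intro z
    rw [vopG, act_sum]
    refine Finset.sum_congr rfl fun W _ => ?_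
    rw [act_smul]
  have hsum : ∑ W ∈ fam Fm S, (∏ i ∈ W, q i) * ((∏ i ∈ S, b i) * (∏ i ∈ W, (1 + b i)) * β)
      ≤ (Fm.card : ℝ) * ((∏ i ∈ S, b i) * β) := by
    have h5 : ∀ W ∈ fam Fm S, (∏ i ∈ W, q i) * ((∏ i ∈ S, b i) * (∏ i ∈ W, (1 + b i)) * β)
        ≤ (∏ i ∈ S, b i) * β := by
      intro W _
      have e1 : (∏ i ∈ W, q i) * ((∏ i ∈ S, b i) * (∏ i ∈ W, (1 + b i)) * β)
          = (∏ i ∈ W, q i * (1 + b i)) * ((∏ i ∈ S, b i) * β) := by
        rw [Finset.prod_mul_distrib]; ring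
      rw [e1]
      have h6 : ∏ i ∈ W, q i * (1 + b i) ≤ 1 :=
        Finset.prod_le_one (fun i _ => mul_nonneg (hq0 i) (by have := hb i; linarith))
          (fun i _ => hq3 i)
      nlinarith only [hb0, h6]
    refine (Finset.sum_le_sum h5).trans ?_
    rw [Finset.sum_const, nsmul_eq_mul]
    apply mul_le_mul_of_nonneg_right _ hb0.le
    have : (fam Fm S).card ≤ Fm.card := by
      apply Finset.card_le_card
      intro W hW
      exact hFm _ (mem_fam.mp hW).2 _ Finset.subset_union_right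
    exact_mod_cast this
  simp only [hu, mul_one] at htr
  have herr : ε * (∑ W ∈ fam Fm S, (∏ i ∈ W, q i) *
      ((∏ i ∈ S, b i) * (∏ i ∈ W, (1 + b i)) * β)) ^ (2 * m)
      ≤ ((∏ i ∈ S, b i) * β) ^ (2 * m) := by
    have h6 : 0 ≤ ∑ W ∈ fam Fm S, (∏ i ∈ W, q i) *
        ((∏ i ∈ S, b i) * (∏ i ∈ W, (1 + b i)) * β) :=
      Finset.sum_nonneg fun W _ =>
        mul_nonneg (hpq W) (mul_nonneg (mul_nonneg (hpb S).le (hpb1 W)) hβ.le)
    calc ε * (∑ W ∈ fam Fm S, (∏ i ∈ W, q i) *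
          ((∏ i ∈ S, b i) * (∏ i ∈ W, (1 + b i)) * β)) ^ (2 * m)
        ≤ ε * ((Fm.card : ℝ) * ((∏ i ∈ S, b i) * β)) ^ (2 * m) :=
          mul_le_mul_of_nonneg_left (pow_le_pow_left₀ h6 hsum _) hε0
      _ = (ε * (Fm.card : ℝ) ^ (2 * m)) * ((∏ i ∈ S, b i) * β) ^ (2 * m) := by
          rw [mul_pow]; ring
      _ ≤ 1 * ((∏ i ∈ S, b i) * β) ^ (2 * m) :=
          mul_le_mul_of_nonneg_right hε (pow_nonneg hb0.le _)
      _ = _ := one_mul _
  have hνmom : act (Aop Hs Sᶜ) (fun z => F z * act (vopG Hs q Fm S) F z ^ (2 * m)) x0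
      ≤ A ^ m + ((∏ i ∈ S, b i) * β) ^ (2 * m) := by
    have h7 : act (Aop Hs Sᶜ) (fun z => F z * act (vopG Hs q Fm S) F z ^ (2 * m)) x0
        ≤ act (Aop Hs Sᶜ) (fun z => (ν z - 1) * act (vopG Hs q Fm S) F z ^ (2 * m)
          + act (vopG Hs q Fm S) F z ^ (2 * m)) x0 := by
      apply Aop_mono
      intro z
      have h8 : 0 ≤ act (vopG Hs q Fm S) F z ^ (2 * m) := (even_two_mul m).pow_nonneg _
      have h9 := hFν z
      nlinarith only [h8, h9]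
    rw [act_fun_add] at h7
    have h10 := (abs_le.mp htr).2
    linarith only [hmom, herr, h7, h10]
  have hEF := h2 S hSF x0
  have hEF0 : 0 ≤ act (Aop Hs Sᶜ) F x0 := Aop_nonneg Hs _ hF x0
  rw [← hKeq, hphi]
  rw [← hKeq, hphi] at hνmom
  refine le_trans hhol ?_
  apply mul_le_mul (pow_le_pow_left₀ hEF0 hEF _) hνmom _ (pow_nonneg hb0.le _)
  exact Aop_nonneg Hs _ (fun z => mul_nonneg (hF z) ((even_two_mul m).pow_nonneg _)) x0

lemma const_boundG (m : ℕ) (hm : 2 ≤ m) (q σ c : ℝ) (hq0 : 0 ≤ q) (hc : 1 ≤ c)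
    (hq : 12 * m * q * (1 + c) ≤ 1)
    (hσ2 : σ ^ 2 = 4 * m * q ^ 2) : (4 * m : ℝ) ^ m * ((1 + c) ^ 2 * σ ^ 2) ^ (m - 1) ≤ 1 := by
  have hm' : (2 : ℝ) ≤ m := by exact_mod_cast hm
  have h1 : (1 + c) ^ 2 * σ ^ 2 = 9 * (2 * Real.sqrt m * (q * (1 + c) / 3)) ^ 2 := by
    rw [hσ2, mul_pow, mul_pow, Real.sq_sqrt (by positivity)]
    ring
  rw [h1]
  apply const_bound m hm (q * (1 + c) / 3) _ (by positivity)
  · have : 36 * (m : ℝ) * (q * (1 + c) / 3) = 12 * m * q * (1 + c) := by ring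
    rw [this]
    exact hq
  · rw [mul_pow, mul_pow, Real.sq_sqrt (by positivity)]
    ring

end aux

/-- The level inequality with coordinatewise rates and growth. -/
theorem level_genG {G ι : Type*} [AddCommGroup G] [Fintype G] [Fintype ι] [DecidableEq ι]
    (Hs : ι → AddSubgroup G) (F ν : G → ℝ) (Fm : Finset (Finset ι))
    (hFm : ∀ S ∈ Fm, ∀ T, T ⊆ S → T ∈ Fm) (m : ℕ) (β ε : ℝ) (q b : ι → ℝ)
    (hm : 2 ≤ m) (hq0 : ∀ i, 0 ≤ q i) (hb : ∀ i, 1 ≤ b i)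
    (hq : ∀ i, 12 * m * q i * (1 + b i) ≤ 1)
    (hβ : 0 < β)
    (hF : ∀ x, 0 ≤ F x) (hFν : ∀ x, F x ≤ ν x)
    (h2 : ∀ S ∈ Fm, ∀ x, EE Hs Sᶜ F x ≤ (∏ i ∈ S, b i) * β)
    (hν : ∀ 𝒯 : Fin (2 * m + 1) → Finset ι, (∀ i, 𝒯 i ∈ Fm) →
      ∀ x, |EE Hs (Finset.univ.sup 𝒯)ᶜ ν x - 1| ≤ ε)
    (hε : ε * (Fm.card : ℝ) ^ (2 * m) ≤ 1) :
    ∀ x, ∑ U ∈ Fm, (∏ i ∈ U, q i) *
      EE Hs Finset.univ (fun z => (gg Hs F ∅ U z) ^ 2) x ≤
        2 * β ^ 2 * (1 + β ^ (-(1 / (m : ℝ)))) := by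
  intro x
  have hrβ : 0 < β ^ (-(1 / (m : ℝ))) := Real.rpow_pos_of_pos hβ _
  rcases Fm.eq_empty_or_nonempty with hemp | ⟨S1, hS1⟩
  · rw [hemp, Finset.sum_empty]; positivity
  have hempty : ∅ ∈ Fm := hFm S1 hS1 ∅ (Finset.empty_subset _)
  have hm' : (2 : ℝ) ≤ m := by exact_mod_cast hm
  simp only [← act_Aop] at h2 hν
  -- parameters
  set sm : ℝ := Real.sqrt m with hsm
  have hsm2 : sm ^ 2 = m := Real.sq_sqrt (by linarith only [])
  have hsm0 : 0 < sm := Real.sqrt_pos.mpr (by linarith only [hm'])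
  set r : ℝ := (2 * sm)⁻¹ with hr
  set σ : ι → ℝ := fun i => 2 * sm * q i with hσ
  have hr1 : 4 * m * r ^ 2 = 1 := by
    rw [hr, ← hsm2]; field_simp; norm_num
  have hrσ : ∀ i, r * σ i = q i := by
    intro i
    rw [hr, hσ]; (clear * - hsm0; field_simp)
  have hσ2 : ∀ i, σ i ^ 2 = 4 * m * q i ^ 2 := by
    intro i
    simp only [hσ]
    rw [← hsm2]; ring
  have hq24 : ∀ i, 24 * m * q i ≤ 1 := by
    intro i
    have h1 := hq i
    have h3 : 0 ≤ 12 * m * q i := by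
      have := hq0 i
      positivity
    nlinarith [hb i]
  have hσq : ∀ i, 2 * σ i ^ 2 ≤ q i := by
    intro i
    rw [hσ2]
    nlinarith only [hq0 i, hq24 i]
  have hq3 : ∀ i, q i * (1 + b i) ≤ 1 := by
    intro i
    have h1 := hq i
    have h3 : 0 ≤ q i * (1 + b i) := mul_nonneg (hq0 i) (by have := hb i; linarith)
    nlinarith
  have hcon : ∀ i, (4 * m : ℝ) ^ m * ((1 + b i) ^ 2 * σ i ^ 2) ^ (m - 1) ≤ 1 :=
    fun i => const_boundG m hm (q i) (σ i) (b i) (hq0 i) (hb i) (hq i) (hσ2 i)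
  have hε0 : 0 ≤ ε := (abs_nonneg _).trans (hν (fun _ => ∅) (fun _ => hempty) 0)
  have hpb : ∀ V : Finset ι, 0 < ∏ i ∈ V, b i :=
    fun V => Finset.prod_pos fun i _ => lt_of_lt_of_le one_pos (hb i)
  have hpb2 : ∀ V : Finset ι, 0 < ∏ i ∈ V, b i ^ 2 :=
    fun V => Finset.prod_pos fun i _ => pow_pos (lt_of_lt_of_le one_pos (hb i)) 2
  obtain ⟨⟨S, x0⟩, hmem, hmax⟩ := Finset.exists_max_image
    (Fm ×ˢ (Finset.univ : Finset G))
    (fun p => PhiG Hs F q Fm p.1 p.2 / ∏ i ∈ p.1, b i ^ 2)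
    ⟨(∅, 0), by simp only [mem_product, hempty, mem_univ, and_self]⟩
  have hSF : S ∈ Fm := by
    simp only [Finset.mem_product, Finset.mem_univ, and_true] at hmem
    exact hmem
  set K : ℝ := PhiG Hs F q Fm S x0 / ∏ i ∈ S, b i ^ 2 with hKdef
  have hK0 : 0 ≤ K := div_nonneg (PhiG_nonneg Hs F q hq0 Fm S x0) (hpb2 S).le
  have hK : ∀ S x, PhiG Hs F q Fm S x ≤ K * ∏ i ∈ S, b i ^ 2 := by
    intro S' x'
    by_cases hS' : S' ∈ Fm
    · have := hmax (S', x') (by simp only [mem_product, hS', mem_univ, and_self])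
      simp only at this
      rw [div_le_iff₀ (hpb2 _)] at this
      exact this
    · have h0 : PhiG Hs F q Fm S' x' = 0 := by
        rw [PhiG]
        apply Finset.sum_eq_zero
        intro W hW
        exact absurd (hFm _ (mem_fam.mp hW).2 S' Finset.subset_union_left) hS'
      rw [h0]
      exact mul_nonneg hK0 (hpb2 _).le
  have hKeq : PhiG Hs F q Fm S x0 = K * ∏ i ∈ S, b i ^ 2 := by
    rw [hKdef, div_mul_cancel₀]
    exact (hpb2 S).ne'
  -- the key inequality at the maximiser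
  have hmom := A6G Hs F m (by omega) r K σ q b hr1 hb hrσ hσq hcon Fm hFm hK S x0
  have hfinal := key_at_maxG Hs F ν Fm hFm m β ε (K * ∏ i ∈ S, b i ^ 2) q b hb hq0 hq3 hε0 hβ
    (by omega) hF hFν h2 hν hε S x0 hSF hKeq hmom
  set B : ℝ := ∏ i ∈ S, b i with hB
  have hB1 : 1 ≤ B := by
    rw [hB]
    calc (1 : ℝ) = ∏ i ∈ S, (1 : ℝ) := by rw [Finset.prod_const_one]
      _ ≤ ∏ i ∈ S, b i := Finset.prod_le_prod (fun _ _ => zero_le_one) (fun i _ => hb i)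
  have hB2 : ∏ i ∈ S, b i ^ 2 = B ^ 2 := by rw [hB, Finset.prod_pow]
  rw [hB2] at hfinal
  have hBpos : 0 < B := lt_of_lt_of_le one_pos hB1
  have hb0 : 0 < B * β := mul_pos hBpos hβ
  have hβ' : β ≤ B * β := by nlinarith only [hβ, hB1]
  have hKβ := LI.final_scalar' m (by omega) (K * B ^ 2) (B * β)
    (mul_nonneg hK0 (sq_nonneg _)) hb0 hfinal
  have hK36 : K ≤ 2 * β ^ 2 * (1 + β ^ (-(1 / (m : ℝ)))) := by
    rw [mul_pow] at hKβ
    have h10 : (B * β) ^ (-(1 / (m : ℝ))) ≤ β ^ (-(1 / (m : ℝ))) := by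
      apply Real.rpow_le_rpow_of_nonpos hβ hβ'
      have : (0 : ℝ) ≤ 1 / m := by positivity
      linarith
    have h11 : (0 : ℝ) < B ^ 2 := by positivity
    have h12 : K * B ^ 2 ≤ (2 * β ^ 2 * (1 + β ^ (-(1 / (m : ℝ))))) * B ^ 2 := by
      refine hKβ.trans ?_
      have h13 : 2 * (B ^ 2 * β ^ 2) * (1 + (B * β) ^ (-(1 / (m : ℝ)))) ≤
          2 * (B ^ 2 * β ^ 2) * (1 + β ^ (-(1 / (m : ℝ)))) := by
        apply mul_le_mul_of_nonneg_left _ (by positivity)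
        linarith only [h10]
      refine h13.trans (le_of_eq ?_)
      ring
    exact le_of_mul_le_mul_right h12 h11
  -- conclude
  have hlast := hK ∅ x
  rw [Finset.prod_empty, mul_one] at hlast
  refine le_trans (le_of_eq ?_) (hlast.trans hK36)
  rw [PhiG]
  have hfam : fam Fm (∅ : Finset ι) = Fm := by
    ext U
    simp only [fam, empty_union, compl_empty, powerset_univ, subset_univ, filter_mem_eq_of_subset]
  rw [hfam]
  refine Finset.sum_congr rfl fun U _ => ?_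
  rw [← act_Aop, Finset.compl_empty]
  congr 2
  simp only [act_gg, Pop, Finset.empty_union, Finset.compl_eq_univ_sdiff]

end Vale.Agent.P042.SS.LIG
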