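import Mathlib

/-!
# Tensor domination of kernels on finite product spaces (Theorem S2)
-/

namespace Vale.Agent.P042.SS2

open Finset Matrix
open scoped ComplexConjugate ComplexOrder

/-! ## Kernels, positive kernels, domination -/

section Kernels

variable {Y : Type*} [Fintype Y]

/-- the sesquilinear form of a kernel -/
noncomputable def sq (K : Y → Y → ℂ) (f g : Y → ℂ) : ℂ :=
  ∑ x, ∑ y, f x * K x y * conj (g y)

/-- a positive kernel -/
def Psd (K : Y → Y → ℂ) : Prop := (Matrix.of K).PosSemidef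

theorem sq_eq_dot (K : Y → Y → ℂ) (f : Y → ℂ) :
    sq K f f = star (fun x => conj (f x)) ⬝ᵥ (Matrix.of K *ᵥ (fun x => conj (f x))) := by
  simp only [sq, dotProduct, mulVec, Matrix.of_apply, Finset.mul_sum, Pi.star_apply]
  refine Finset.sum_congr rfl fun x _ => Finset.sum_congr rfl fun y _ => ?_
  simp [mul_assoc]

theorem conj_sq (K : Y → Y → ℂ) (hK : ∀ x y, K y x = conj (K x y)) (f g : Y → ℂ) :
    conj (sq K f g) = sq K g f := by
  simp only [sq, map_sum, map_mul, Complex.conj_conj]
  rw [Finset.sum_comm]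
  refine Finset.sum_congr rfl fun x _ => Finset.sum_congr rfl fun y _ => ?_
  rw [← hK]; ring

theorem psd_iff (K : Y → Y → ℂ) :
    Psd K ↔ (∀ x y, K y x = conj (K x y)) ∧ ∀ f, 0 ≤ (sq K f f).re := by
  constructor
  · intro h
    refine ⟨fun x y => ?_, fun f => ?_⟩
    · have := h.isHermitian.apply y x
      simpa using this.symm
    · rw [sq_eq_dot]
      have := h.dotProduct_mulVec_nonneg (fun x => conj (f x))
      exact (Complex.le_def.1 this).1
  · rintro ⟨h1, h2⟩
    refine PosSemidef.of_dotProduct_mulVec_nonneg ?_ ?_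
    · ext x y
      simp only [conjTranspose_apply, Matrix.of_apply]
      have := h1 y x
      rw [this]; simp
    · intro v
      have e : star v ⬝ᵥ (Matrix.of K *ᵥ v) = sq K (fun x => conj (v x)) (fun x => conj (v x)) := by
        rw [sq_eq_dot]; simp
      rw [e, Complex.le_def]
      refine ⟨by simpa using h2 _, ?_⟩
      have := conj_sq K h1 (fun x => conj (v x)) (fun x => conj (v x))
      have h3 := congrArg Complex.im this
      simp only [Complex.conj_im, Complex.zero_im] at h3 ⊢
      linarith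

theorem Psd.nonneg {K : Y → Y → ℂ} (h : Psd K) (f : Y → ℂ) : 0 ≤ (sq K f f).re :=
  ((psd_iff K).1 h).2 f

theorem Psd.im_zero {K : Y → Y → ℂ} (h : Psd K) (f : Y → ℂ) : (sq K f f).im = 0 := by
  have := conj_sq K ((psd_iff K).1 h).1 f f
  have h3 := congrArg Complex.im this
  simp only [Complex.conj_im] at h3
  linarith

/-- domination of a kernel by two positive kernels -/
def Dom (P Q M : Y → Y → ℂ) : Prop :=
  Psd P ∧ Psd Q ∧ ∀ f g, ‖sq M f g‖ ^ 2 ≤ (sq P f f).re * (sq Q g g).re

/-- the block kernel -/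
def blk (P Q M : Y → Y → ℂ) : Y ⊕ Y → Y ⊕ Y → ℂ
  | Sum.inl x, Sum.inl y => P x y
  | Sum.inl x, Sum.inr y => M x y
  | Sum.inr x, Sum.inl y => conj (M y x)
  | Sum.inr x, Sum.inr y => Q x y

theorem sq_blk (P Q M : Y → Y → ℂ) (f g : Y → ℂ) :
    sq (blk P Q M) (Sum.elim f g) (Sum.elim f g) =
      sq P f f + sq M f g + conj (sq M f g) + sq Q g g := by
  simp only [sq, Fintype.sum_sum_type, Sum.elim_inl, Sum.elim_inr, blk, Finset.sum_add_distrib,
    map_sum, map_mul, Complex.conj_conj]
  have : ∑ x, ∑ x_1, conj (f x) * conj (M x x_1) * g x_1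
      = ∑ x, ∑ x_1, g x * conj (M x_1 x) * conj (f x_1) := by
    rw [Finset.sum_comm]
    refine Finset.sum_congr rfl fun x _ => Finset.sum_congr rfl fun y _ => ?_
    ring
  rw [this]; ring

theorem sq_smul_left (M : Y → Y → ℂ) (z : ℂ) (f g : Y → ℂ) :
    sq M (fun x => z * f x) g = z * sq M f g := by
  simp only [sq, Finset.mul_sum]
  refine Finset.sum_congr rfl fun x _ => Finset.sum_congr rfl fun y _ => ?_
  ring

theorem sq_smul_right (M : Y → Y → ℂ) (z : ℂ) (f g : Y → ℂ) :
    sq M f (fun x => z * g x) = conj z * sq M f g := by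
  simp only [sq, Finset.mul_sum, map_mul]
  refine Finset.sum_congr rfl fun x _ => Finset.sum_congr rfl fun y _ => ?_
  ring

theorem sq_zero_left (M : Y → Y → ℂ) (g : Y → ℂ) : sq M (fun _ => 0) g = 0 := by
  simp [sq]

theorem sq_zero_right (M : Y → Y → ℂ) (g : Y → ℂ) : sq M g (fun _ => 0) = 0 := by
  simp [sq]

theorem dom_iff (P Q M : Y → Y → ℂ) : Dom P Q M ↔ Psd (blk P Q M) := by
  constructor
  · rintro ⟨hP, hQ, h⟩
    rw [psd_iff]
    have hP' := (psd_iff P).1 hP
    have hQ' := (psd_iff Q).1 hQ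
    refine ⟨?_, ?_⟩
    · rintro (x | x) (y | y)
      · exact hP'.1 x y
      · rfl
      · simp [blk]
      · exact hQ'.1 x y
    · intro F
      obtain ⟨f, g, rfl⟩ : ∃ f g, F = Sum.elim f g :=
        ⟨F ∘ Sum.inl, F ∘ Sum.inr, (Sum.elim_comp_inl_inr F).symm⟩
      rw [sq_blk]
      have h1 := h f g
      have ha := hP'.2 f
      have hb := hQ'.2 g
      set a := (sq P f f).re
      set b := (sq Q g g).re
      set m := sq M f g
      simp only [Complex.add_re, Complex.conj_re]
      have h2 : ‖m‖ ≤ (a + b) / 2 := by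
        apply abs_le_of_sq_le_sq' _ (by positivity) |>.2
        nlinarith [sq_nonneg (a - b)]
      have h3 : -‖m‖ ≤ m.re := by
        have := Complex.abs_re_le_norm m
        exact (abs_le.1 this).1
      change 0 ≤ a + m.re + m.re + b
      linarith
  · intro h
    rw [psd_iff] at h
    have key : ∀ f g, 0 ≤ (sq P f f).re + 2 * (sq M f g).re + (sq Q g g).re := by
      intro f g
      have := h.2 (Sum.elim f g)
      rw [sq_blk] at this
      simp only [Complex.add_re, Complex.conj_re] at this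
      linarith
    have hP : Psd P := by
      rw [psd_iff]
      refine ⟨fun x y => h.1 (Sum.inl x) (Sum.inl y), fun f => ?_⟩
      have := key f (fun _ => 0)
      rw [sq_zero_right, sq_zero_right] at this
      simpa using this
    have hQ : Psd Q := by
      rw [psd_iff]
      refine ⟨fun x y => h.1 (Sum.inr x) (Sum.inr y), fun f => ?_⟩
      have := key (fun _ => 0) f
      rw [sq_zero_left, sq_zero_left] at this
      simpa using this
    refine ⟨hP, hQ, fun f g => ?_⟩
    have ha := hP.nonneg f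
    have hb := hQ.nonneg g
    have key2 : ∀ z : ℂ, 0 ≤ (sq P f f).re + 2 * (conj z * sq M f g).re
        + ‖z‖ ^ 2 * (sq Q g g).re := by
      intro z
      have := key f (fun x => z * g x)
      rw [sq_smul_right, sq_smul_left, sq_smul_right] at this
      have e : z * (conj z * sq Q g g) = ((‖z‖ ^ 2 : ℝ) : ℂ) * sq Q g g := by
        rw [← mul_assoc, Complex.mul_conj, Complex.normSq_eq_norm_sq]
      rw [e, Complex.re_ofReal_mul] at this
      exact this
    set a := (sq P f f).re
    set b := (sq Q g g).re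
    set m := sq M f g
    have hm : ∀ t : ℝ, 0 ≤ a - 2 * t * ‖m‖ ^ 2 + t ^ 2 * ‖m‖ ^ 2 * b := by
      intro t
      have := key2 (-(t : ℂ) * m)
      have e1 : (conj (-(t : ℂ) * m) * m).re = - t * ‖m‖ ^ 2 := by
        have : conj (-(t : ℂ) * m) * m = ((- t * ‖m‖ ^ 2 : ℝ) : ℂ) := by
          have h1 : conj m * m = ((‖m‖ ^ 2 : ℝ) : ℂ) := by
            rw [mul_comm, Complex.mul_conj, Complex.normSq_eq_norm_sq]
          simp only [map_mul, map_neg, Complex.conj_ofReal]
          rw [mul_assoc, h1]; push_cast; ring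
        rw [this, Complex.ofReal_re]
      have e2 : ‖-(t : ℂ) * m‖ ^ 2 = t ^ 2 * ‖m‖ ^ 2 := by
        rw [norm_mul, norm_neg, mul_pow, Complex.norm_real, Real.norm_eq_abs, sq_abs]
      rw [e1, e2] at this
      nlinarith
    rcases hb.eq_or_lt with hb0 | hb0
    · -- b = 0
      have h1 : ‖m‖ ^ 2 ≤ 0 := by
        by_contra hcon
        push Not at hcon
        have := hm ((a + 1) / (2 * ‖m‖ ^ 2))
        rw [← hb0] at this
        have hne : ‖m‖ ^ 2 ≠ 0 := hcon.ne'
        have e : 2 * ((a + 1) / (2 * ‖m‖ ^ 2)) * ‖m‖ ^ 2 = a + 1 := by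
          generalize ‖m‖ ^ 2 = q at hne
          field_simp
        rw [e] at this
        simp at this
        linarith
      rw [← hb0]; simpa using h1
    · have := hm (1 / b)
      have e : a - 2 * (1 / b) * ‖m‖ ^ 2 + (1 / b) ^ 2 * ‖m‖ ^ 2 * b = a - ‖m‖ ^ 2 / b := by
        field_simp; ring
      rw [e] at this
      have h2 : ‖m‖ ^ 2 / b ≤ a := by linarith
      rwa [div_le_iff₀ hb0] at h2

theorem psd_one : Psd (fun _ _ : Y => (1 : ℂ)) := by
  rw [psd_iff]
  refine ⟨fun _ _ => by simp, fun f => ?_⟩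
  have : sq (fun _ _ : Y => (1 : ℂ)) f f = (∑ x, f x) * conj (∑ x, f x) := by
    simp only [sq, map_sum, mul_one, Finset.sum_mul_sum]
  rw [this, Complex.mul_conj, Complex.ofReal_re]
  exact Complex.normSq_nonneg _

omit [Fintype Y] in
theorem Psd.mul {K L : Y → Y → ℂ} (hK : Psd K) (hL : Psd L) : Psd (fun x y => K x y * L x y) :=
  PosSemidef.hadamard hK hL

omit [Fintype Y] in
theorem Psd.comp {Z : Type*} [Fintype Z] {K : Y → Y → ℂ} (hK : Psd K) (φ : Z → Y) :
    Psd (fun a b => K (φ a) (φ b)) :=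
  PosSemidef.submatrix hK φ

end Kernels

section Product

variable {ι : Type*} {X : ι → Type*}

theorem psd_prod_comp {Z : Type*} [Fintype Z] {W : ι → Type*} [∀ i, Fintype (W i)]
    (φ : ∀ i, Z → W i) (K : ∀ i, W i → W i → ℂ) (h : ∀ i, Psd (K i)) (s : Finset ι) :
    Psd (fun a b => ∏ i ∈ s, K i (φ i a) (φ i b)) := by
  classical
  induction s using Finset.induction_on with
  | empty => simpa using (psd_one (Y := Z))
  | insert i s hi ih =>
    have := ((h i).comp (φ i)).mul ih
    have e : (fun a b => ∏ i ∈ insert i s, K i (φ i a) (φ i b))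
        = (fun a b => K i (φ i a) (φ i b) * ∏ i ∈ s, K i (φ i a) (φ i b)) := by
      funext a b
      rw [Finset.prod_insert hi]
    rw [e]; exact this

variable [Fintype ι]

/-- product kernel -/
noncomputable def pk (K : ∀ i, X i → X i → ℂ) : (∀ i, X i) → (∀ i, X i) → ℂ :=
  fun x y => ∏ i, K i (x i) (y i)

variable [DecidableEq ι] [∀ i, Fintype (X i)]

theorem Psd.pi {K : ∀ i, X i → X i → ℂ} (h : ∀ i, Psd (K i)) : Psd (pk K) :=
  psd_prod_comp (Z := ∀ i, X i) (fun i x => x i) K h Finset.univ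

theorem Dom.pi {P Q M : ∀ i, X i → X i → ℂ} (h : ∀ i, Dom (P i) (Q i) (M i)) :
    Dom (pk P) (pk Q) (pk M) := by
  rw [dom_iff]
  have h1 : ∀ i, Psd (blk (P i) (Q i) (M i)) := fun i => (dom_iff _ _ _).1 (h i)
  have h2 := psd_prod_comp (Z := (∀ i, X i) ⊕ (∀ i, X i)) (W := fun i => X i ⊕ X i)
    (fun i => Sum.map (fun x => x i) (fun x => x i)) _ h1 Finset.univ
  have e : blk (pk P) (pk Q) (pk M) = (fun a b : (∀ i, X i) ⊕ (∀ i, X i) =>
      ∏ i, blk (P i) (Q i) (M i) (Sum.map (fun x => x i) (fun x => x i) a)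
        (Sum.map (fun x => x i) (fun x => x i) b)) := by
    funext a b
    rcases a with a | a <;> rcases b with b | b <;> simp [blk, pk, Sum.map]
  rw [e]; exact h2

end Product

end Vale.Agent.P042.SS2
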